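import Vale.Agent.P182.H533.Conn

/-!
# Configurations: a flagged quadratic space with columns

Common language for the blocks B1, B6, B7 of the proof of `T` on `E'`.
-/

namespace Vale.Agent.P182.B1

open Module Matrix Vale.Agent.P182.H533

universe u v w

/-- a quadratic space with three flags, columns `l : J` of heights `c l` in the flag `arm l`,
and a matrix `Ω` -/
structure Cfg (L : Type u) (V : Type v) (J : Type w) [Field L] [AddCommGroup V] [Module L V] where
  q : V →ₗ[L] V →ₗ[L] L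
  F : Fin 3 → ℕ → Submodule L V
  arm : J → Fin 3
  c : J → ℕ
  Ω : Matrix J J L

section basic

variable {L : Type u} {V : Type v} {J : Type w} [Field L] [AddCommGroup V] [Module L V]

namespace Cfg

variable (𝒟 : Cfg L V J)

/-- the standing assumptions -/
structure Good : Prop where
  form : IsForm 𝒟.q
  zero : ∀ s, 𝒟.F s 0 = ⊥
  mono : ∀ s, Monotone (𝒟.F s)
  iso : ∀ s i, 𝒟.F s i ≤ perp 𝒟.q (𝒟.F s i)
  step : ∀ s i, finrank L (𝒟.F s (i + 1)) ≤ finrank L (𝒟.F s i) + 1
  skew : 𝒟.Ωᵀ = -𝒟.Ω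

/-- the column spaces -/
def C (l : J) : Submodule L V := 𝒟.F (𝒟.arm l) (𝒟.c l)

/-- isotropic subspaces -/
def Iso (S : Submodule L V) : Prop := S ≤ perp 𝒟.q S

/-- the local numerical function -/
noncomputable def th (s : Fin 3) (i : ℕ) (W : Submodule L V) : ℤ :=
  (finrank L (W ⊓ 𝒟.F s i : Submodule L V) : ℤ) +
    finrank L (W ⊓ perp 𝒟.q (𝒟.F s i) : Submodule L V) - finrank L W

/-- `σ` pairs the columns (class `E'`): the two columns of a pair have the same arm and the same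
height, with the exception of at most one pair of maximal isotropic columns of two different
arms. -/
structure Pairing (σ : J → J) : Prop where
  invol : ∀ l, σ (σ l) = l
  ne : ∀ l, σ l ≠ l
  same : ∀ l, 𝒟.arm (σ l) = 𝒟.arm l → 𝒟.c (σ l) = 𝒟.c l
  cross : ∀ l, 𝒟.arm (σ l) ≠ 𝒟.arm l → finrank L V ≤ 2 * finrank L (𝒟.C l) + 1
  one : ∀ l k, 𝒟.arm (σ l) ≠ 𝒟.arm l → 𝒟.arm (σ k) ≠ 𝒟.arm k → k = l ∨ k = σ l

/-- The configuration is paired (class `E'`). -/
def Paired : Prop := ∃ σ : J → J, 𝒟.Pairing σ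

/-- the same configuration with other column heights -/
def setc (c : J → ℕ) : Cfg L V J := { 𝒟 with c := c }

variable [Fintype J]

/-- the vectors `u_l = ∑ Ω_lk t_k` -/
def om (t : J → V) (l : J) : V := ∑ k, 𝒟.Ω l k • t k

/-- the numerical function -/
noncomputable def theta (W : Submodule L V) : ℤ := ∑ l, 𝒟.th (𝒟.arm l) (𝒟.c l) W

/-- the kernel -/
def K : Submodule L (J → V) where
  carrier := {t | (∀ l, t l ∈ 𝒟.C l) ∧ ∀ l, 𝒟.om t l ∈ perp 𝒟.q (𝒟.C l)}
  add_mem' := by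
    rintro a b ⟨ha, ha'⟩ ⟨hb, hb'⟩
    refine ⟨fun l => add_mem (ha l) (hb l), fun l => ?_⟩
    have : 𝒟.om (a + b) l = 𝒟.om a l + 𝒟.om b l := by
      simp only [om, Pi.add_apply, smul_add, Finset.sum_add_distrib]
    rw [this]
    exact add_mem (ha' l) (hb' l)
  zero_mem' := by
    refine ⟨fun l => zero_mem _, fun l => ?_⟩
    have : 𝒟.om 0 l = 0 := by simp [om]
    rw [this]
    exact zero_mem _
  smul_mem' := by
    rintro x a ⟨ha, ha'⟩
    refine ⟨fun l => Submodule.smul_mem _ _ (ha l), fun l => ?_⟩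
    have : 𝒟.om (x • a) l = x • 𝒟.om a l := by
      simp only [om, Pi.smul_apply, Finset.smul_sum]
      exact Finset.sum_congr rfl fun k _ => smul_comm _ _ _
    rw [this]
    exact Submodule.smul_mem _ _ (ha' l)

theorem mem_K {t : J → V} : t ∈ 𝒟.K ↔ (∀ l, t l ∈ 𝒟.C l) ∧ ∀ l, 𝒟.om t l ∈ perp 𝒟.q (𝒟.C l) :=
  Iff.rfl

omit [Fintype J] in
/-- **Versality**: every first order variation of the flags and of `Ω` is realised by a
metric connection. -/
def Versal : Prop := ∀ Y : Fin 3 → End L V, (∀ s, IsSk 𝒟.q (Y s)) → ∀ η : Matrix J J L, ηᵀ = -η →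
  ∃ n : Conn 𝒟.q, (∀ s i, ∀ v ∈ 𝒟.F s i, n.δ v - Y s v ∈ 𝒟.F s i) ∧
    ∀ l k, n.d (𝒟.Ω l k) = η l k

omit [Fintype J] in
/-- **Richness**: there are many derivations killing the configuration. -/
def Rich : Prop := ∀ m : ℕ, ∃ n : Fin m → Conn 𝒟.q, ∃ τ : Fin m → L,
  (∀ a s i, ∀ v ∈ 𝒟.F s i, (n a).δ v ∈ 𝒟.F s i) ∧ (∀ a l k, (n a).d (𝒟.Ω l k) = 0) ∧
    ∀ a b, (n a).d (τ b) = if a = b then 1 else 0

/-- semistability -/
def Semistable : Prop := ∀ S, 𝒟.Iso S → 𝒟.theta S ≤ 0

/-- the statement `T` for the configuration -/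
def T : Prop := ∃ S, 𝒟.Iso S ∧ (finrank L 𝒟.K : ℤ) ≤ 𝒟.theta S

end Cfg

/-- the induction hypothesis: `T` in dimensions `< m` -/
def IH (L : Type u) (J : Type w) [Field L] [Fintype J] (m : ℕ) : Prop :=
  ∀ (V : Type v) [AddCommGroup V] [Module L V] [FiniteDimensional L V] (𝒟 : Cfg L V J),
    finrank L V < m → 𝒟.Good → 𝒟.Versal → 𝒟.Rich → 𝒟.Paired → 𝒟.T

end basic

/-! ### Objects of the `J`-model: a space with families of subspaces -/

section jmodel

variable {L : Type u} {S : Type v} {J : Type w} [Field L] [AddCommGroup S] [Module L S] [Fintype J]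

/-- `Hom(N, S)` -/
def HomN (Ω : Matrix J J L) (A B : J → Submodule L S) : Submodule L (J → S) where
  carrier := {x | (∀ l, x l ∈ A l) ∧ ∀ l, ∑ k, Ω l k • x k ∈ B l}
  add_mem' := by
    rintro a b ⟨ha, ha'⟩ ⟨hb, hb'⟩
    refine ⟨fun l => add_mem (ha l) (hb l), fun l => ?_⟩
    simp only [Pi.add_apply, smul_add, Finset.sum_add_distrib]
    exact add_mem (ha' l) (hb' l)
  zero_mem' := ⟨fun l => zero_mem _, fun l => by simp⟩
  smul_mem' := by
    rintro x a ⟨ha, ha'⟩
    refine ⟨fun l => Submodule.smul_mem _ _ (ha l), fun l => ?_⟩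
    have : ∑ k, Ω l k • (x • a) k = x • ∑ k, Ω l k • a k := by
      simp only [Pi.smul_apply, Finset.smul_sum]
      exact Finset.sum_congr rfl fun k _ => smul_comm _ _ _
    rw [this]
    exact Submodule.smul_mem _ _ (ha' l)

/-- `Hom(N, S^*)`, dual to `Ext(N, S)` -/
def HomD (Ω : Matrix J J L) (A B : J → Submodule L S) : Submodule L (J → Dual L S) :=
  HomN Ω (fun l => (B l).dualAnnihilator) (fun l => (A l).dualAnnihilator)

/-- the Euler characteristic -/
noncomputable def chiJ (A B : J → Submodule L S) (T : Submodule L S) : ℤ :=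
  ∑ l, ((finrank L (A l ⊓ T : Submodule L S) : ℤ) + finrank L (B l ⊓ T : Submodule L S) -
    finrank L T)

/-- a connection without a form -/
structure GConn (L : Type u) (S : Type v) [Field L] [AddCommGroup S] [Module L S] where
  d : L →+ L
  δ : S →+ S
  leib : ∀ a b, d (a * b) = d a * b + a * d b
  smul : ∀ a v, δ (a • v) = d a • v + a • δ v

/-- versality of a space with three families of subspaces -/
def GLVersal (Ω : Matrix J J L) (arm : J → Fin 3) (A B : J → Submodule L S) : Prop :=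
  ∀ (r : Fin 3 → End L S) (η : Matrix J J L), ηᵀ = -η → ∃ n : GConn L S,
    (∀ l, ∀ v ∈ A l, n.δ v - r (arm l) v ∈ A l) ∧ (∀ l, ∀ v ∈ B l, n.δ v - r (arm l) v ∈ B l) ∧
      ∀ l k, n.d (Ω l k) = η l k

end jmodel

end Vale.Agent.P182.B1
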