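import Vale.Agent.P182.H664.Frame
import Vale.Agent.P182.H922.N1sq

/-!
# `T` from the exclusion of critical configurations
-/

namespace Vale.Agent.P182.B1

open Module Matrix Vale.Agent.P182.H533

universe u v w

/-- the square-zero vanishing lemma holds -/
theorem n1Hyp {L : Type u} {J : Type w} [Field L] [Fintype J] [DecidableEq J]
    (h2 : (2 : L) ≠ 0) : N1Hyp L J := by
  intro arm c Ω hΩ hd C hC h0 h1 hG
  refine H922.n1sq h2 arm c hΩ (fun η hη => ?_) hC h0 h1 hG
  exact hd η hη

/-- **Block B1**: `T` holds for all good, versal, rich, paired configurations over `L`, if there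
is no critical configuration over `L`. -/
theorem T_all_of_crit {L : Type u} {J : Type w} [Field L] [Fintype J] [DecidableEq J]
    (h2 : (2 : L) ≠ 0)
    (hcrit : ∀ (V : Type v) [AddCommGroup V] [Module L V] [FiniteDimensional L V]
      (𝒟 : Cfg L V J) (σ : J → J), ¬ Crit.{u, v, w} 𝒟 σ)
    {V : Type v} [AddCommGroup V] [Module L V] [FiniteDimensional L V] (𝒟 : Cfg L V J)
    (g : 𝒟.Good) (hV : 𝒟.Versal) (hR : 𝒟.Rich) (hP : 𝒟.Paired) : 𝒟.T :=
  T_all_of_no_crit h2 (n1Hyp h2) hcrit 𝒟 g hV hR hP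

end Vale.Agent.P182.B1
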