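import Vale.Agent.P182.H664.TAll

/-!
# The strong form of `T`: the kernel is contained in an isotropic subspace
-/

namespace Vale.Agent.P182.B1

open Module Matrix Vale.Agent.P182.H533 Vale.Agent.P182.H62

universe u v w

namespace Cfg

variable {L : Type u} {V : Type v} {J : Type w} [Field L] [AddCommGroup V] [Module L V]
  [FiniteDimensional L V] {𝒟 : Cfg L V J} {S : Submodule L V} [Fintype J] [DecidableEq J]

/-- `Ext(N, S) = 0` for a rigid isotropic subspace maximal for `theta` among its subspaces -/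
theorem Rigid.homD_eq_bot (hr : 𝒟.Rigid S) (g : 𝒟.Good) (hS : 𝒟.Iso S)
    (h2 : (2 : L) ≠ 0) (hV : 𝒟.Versal) (hmax : ∀ T ≤ S, 𝒟.theta T ≤ 𝒟.theta S) :
    H887.HomD 𝒟.Ω (objA 𝒟 S) (objB 𝒟 S) = ⊥ := by
  have hN := n1Hyp h2 𝒟.arm 𝒟.c 𝒟.Ω g.skew hV.der
  have hC : ∀ l k, 𝒟.arm l = 𝒟.arm k → 𝒟.c l ≤ 𝒟.c k → 𝒟.C l ≤ 𝒟.C k := by
    intro l k h h'
    rw [C, C, h]
    exact g.mono _ h'
  have hE := H887.mtJ (S := S) g.skew hN (A := objA 𝒟 S) (B := objB 𝒟 S) ?_ ?_ ?_ ?_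
    (hr.glVersal g hS h2 hV) ?_
  · exact (H887.homD_eq _ _ _).symm.trans hE.1
  · intro l k h
    rcases le_total (𝒟.c l) (𝒟.c k) with h' | h'
    · exact Or.inl (Submodule.comap_mono (hC l k h h'))
    · exact Or.inr (Submodule.comap_mono (hC k l h.symm h'))
  · intro l k h
    rcases le_total (𝒟.c l) (𝒟.c k) with h' | h'
    · exact Or.inr (Submodule.comap_mono (perp_anti (hC l k h h')))
    · exact Or.inl (Submodule.comap_mono (perp_anti (hC k l h.symm h')))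
  · intro l k h
    refine Submodule.comap_mono ?_
    rcases le_total (𝒟.c l) (𝒟.c k) with h' | h'
    · exact (g.iso (𝒟.arm k) (𝒟.c k)).trans (perp_anti (hC l k h h'))
    · exact (hC k l h.symm h').trans (g.iso (𝒟.arm l) (𝒟.c l))
  · intro l k h h'
    exact Submodule.comap_mono (perp_anti (hC l k h h'))
  · intro T
    rw [H887.chiJ_eq, H887.chiJ_eq, theta_obj, theta_obj_top]
    refine hmax _ ?_
    rintro _ ⟨x, _, rfl⟩
    exact x.2

omit [DecidableEq J] in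
/-- a semistable configuration with `T` has no kernel -/
theorem T.K_eq_bot (hT : 𝒟.T) (hs : 𝒟.Semistable) : 𝒟.K = ⊥ := by
  obtain ⟨S, hS, h⟩ := hT
  have := hs S hS
  exact Submodule.finrank_eq_zero.mp (by omega)

/-- **Strong `T`**: the entries of the elements of the kernel are in one isotropic subspace. -/
theorem strong (h2 : (2 : L) ≠ 0) (g : 𝒟.Good) (hV : 𝒟.Versal) (hR : 𝒟.Rich) (hP : 𝒟.Paired)
    (hI : IH.{u, v, w} L J (finrank L V + 1)) : ∃ Z, 𝒟.Iso Z ∧ ∀ t ∈ 𝒟.K, ∀ l, t l ∈ Z := by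
  by_cases hs : 𝒟.Semistable
  · refine ⟨⊥, bot_le, fun t ht l => ?_⟩
    rw [(hI V 𝒟 (Nat.lt_succ_self _) g hV hR hP).K_eq_bot hs, Submodule.mem_bot] at ht
    rw [ht]
    exact Submodule.zero_mem _
  · obtain ⟨Z, hZ, hr, hpos, hmax⟩ := H887.exists_rigid_max g hs
    have hr' : 𝒟.Rigid Z := hr
    have hE := hr'.homD_eq_bot g hZ h2 hV fun T _ => hmax T
    refine ⟨Z, hZ, fun t ht l => ?_⟩
    have hss : (sq 𝒟 g Z).Semistable := by
      intro T hT
      have h3 := hmax (SQpre Z T)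
      rw [theta_sq g hZ] at h3
      linarith
    have h1 := finrank_SQ Z g.form hZ
    have h4 : (sq 𝒟 g Z).K = ⊥ := (hI _ _ (by omega) (good_sq g hZ) (hr'.versal_sq g hZ h2 hV)
      (hr'.rich_sq g hR) (paired_sq g hZ hP)).K_eq_bot hss
    have h5 := toSQ_mem g hZ hE ⟨t, ht⟩
    rw [h4, Submodule.mem_bot] at h5
    exact (SQmk_eq_zero Z).mp (congrFun h5 l)

/-- **Strong `T`**: the entries of the elements of the kernel are orthogonal to each other. -/
theorem strong_ortho (h2 : (2 : L) ≠ 0) (g : 𝒟.Good) (hV : 𝒟.Versal) (hR : 𝒟.Rich)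
    (hP : 𝒟.Paired) (hI : IH.{u, v, w} L J (finrank L V + 1)) {t t' : J → V} (ht : t ∈ 𝒟.K)
    (ht' : t' ∈ 𝒟.K) (l k : J) : 𝒟.q (t l) (t' k) = 0 := by
  obtain ⟨Z, hZ, h⟩ := strong h2 g hV hR hP hI
  exact hZ (h t ht l) _ (h t' ht' k)

omit [FiniteDimensional L V] in
/-- the strong form below the dimension of a critical configuration -/
theorem strong_of_lt {V' : Type v} [AddCommGroup V'] [Module L V'] [FiniteDimensional L V']
    {𝒟' : Cfg L V' J} (h2 : (2 : L) ≠ 0) (hI : IH.{u, v, w} L J (finrank L V))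
    (hlt : finrank L V' < finrank L V) (g : 𝒟'.Good) (hV : 𝒟'.Versal) (hR : 𝒟'.Rich)
    (hP : 𝒟'.Paired) : ∃ Z, 𝒟'.Iso Z ∧ ∀ t ∈ 𝒟'.K, ∀ l, t l ∈ Z :=
  strong h2 g hV hR hP fun W _ _ _ 𝒟'' h => hI W 𝒟'' (by omega)

end Cfg

end Vale.Agent.P182.B1
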