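import Vale.Agent.P182.H664.Parity

/-!
# The induction frame

`T` holds for all versal rich paired configurations, if there is no critical configuration.
-/

namespace Vale.Agent.P182.B1

open Module Matrix Vale.Agent.P182.H533 Vale.Agent.P182.H62

universe u v w

/-- the square-zero `N1` for all versal `Ω` -/
def N1Hyp (L : Type u) (J : Type w) [Field L] [Fintype J] [DecidableEq J] : Prop :=
  ∀ (arm : J → Fin 3) (c : J → ℕ) (Ω : Matrix J J L), Ωᵀ = -Ω →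
    (∀ η : Matrix J J L, ηᵀ = -η → ∃ d : L →+ L, (∀ a b, d (a * b) = d a * b + a * d b) ∧
      ∀ l k, d (Ω l k) = η l k) →
    H887.N1sq arm (fun l k => c l ≤ c k) Ω

/-- **A critical configuration**: what remains to be excluded. -/
structure Crit {L : Type u} {V : Type v} {J : Type w} [Field L] [AddCommGroup V] [Module L V]
    [Fintype J] (𝒟 : Cfg L V J) (σ : J → J) : Prop where
  good : 𝒟.Good
  versal : 𝒟.Versal
  rich : 𝒟.Rich
  pairing : 𝒟.Pairing σ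
  semistable : 𝒟.Semistable
  null : 𝒟.Null
  ih : IH.{u, v, w} L J (finrank L V)
  shorter : ∀ c : J → ℕ, ∑ l, c l < ∑ l, 𝒟.c l → (𝒟.setc c).Pairing σ → (𝒟.setc c).T
  finrank_K : finrank L 𝒟.K = 2
  corner : ∀ l, 𝒟.arm (σ l) = 𝒟.arm l → 1 ≤ 𝒟.c l → ∀ t ∈ 𝒟.K,
    t l ∈ 𝒟.F (𝒟.arm l) (𝒟.c l - 1) → t (σ l) ∈ 𝒟.F (𝒟.arm l) (𝒟.c l - 1) → t = 0

namespace Cfg

variable {L : Type u} {V : Type v} {J : Type w} [Field L] [AddCommGroup V] [Module L V]
  [FiniteDimensional L V] [Fintype J] [DecidableEq J]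

omit [FiniteDimensional L V] [Fintype J] in
theorem Versal.Ω_ne {𝒟 : Cfg L V J} (hV : 𝒟.Versal) {l k : J} (h : l ≠ k) : 𝒟.Ω l k ≠ 0 := by
  obtain ⟨n, _, hn⟩ := hV (fun _ => 0) (fun s u v => by simp)
    (Matrix.of fun p q => if p = l ∧ q = k then 1 else if p = k ∧ q = l then -1 else 0) (by
      ext p q
      rw [Matrix.transpose_apply, Matrix.neg_apply, Matrix.of_apply, Matrix.of_apply]
      by_cases h1 : p = l ∧ q = k
      · obtain ⟨rfl, rfl⟩ := h1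
        have h2 : ¬ (q = p ∧ p = q) := fun h' => h h'.2
        simp [h2]
      · by_cases h2 : p = k ∧ q = l
        · obtain ⟨rfl, rfl⟩ := h2
          simp [h]
        · have h3 : ¬ (q = l ∧ p = k) := fun h' => h2 ⟨h'.2, h'.1⟩
          have h4 : ¬ (q = k ∧ p = l) := fun h' => h1 ⟨h'.2, h'.1⟩
          simp [h1, h2, h3, h4])
  intro h0
  have h1 := hn l k
  rw [h0, map_zero] at h1
  simp at h1

omit [FiniteDimensional L V] [Fintype J] [DecidableEq J] in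
/-- the derivations of the matrix `Ω` of a versal configuration -/
theorem Versal.der {𝒟 : Cfg L V J} (hV : 𝒟.Versal) (η : Matrix J J L) (hη : ηᵀ = -η) :
    ∃ d : L →+ L, (∀ a b, d (a * b) = d a * b + a * d b) ∧ ∀ l k, d (𝒟.Ω l k) = η l k := by
  obtain ⟨n, _, hn⟩ := hV (fun _ => 0) (fun s u v => by simp) η hη
  exact ⟨n.d, n.leib, hn⟩

/-- the induction on the heights of the columns -/
theorem T_step (h2 : (2 : L) ≠ 0) (hN : N1Hyp L J) (hI : IH.{u, v, w} L J (finrank L V))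
    (σ : J → J) (hcrit : ∀ 𝒟 : Cfg L V J, ¬ Crit 𝒟 σ) (m : ℕ) :
    ∀ 𝒟 : Cfg L V J, ∑ l, 𝒟.c l = m → 𝒟.Good → 𝒟.Versal → 𝒟.Rich → 𝒟.Pairing σ → 𝒟.T := by
  induction m using Nat.strong_induction_on with
  | _ m ih =>
  intro 𝒟 hm g hV hR hP
  have hN' := hN 𝒟.arm 𝒟.c 𝒟.Ω g.skew hV.der
  by_cases hs : 𝒟.Semistable
  · by_cases hK : 𝒟.K = ⊥
    · refine ⟨⊥, bot_le, ?_⟩
      rw [hK, finrank_bot, H887.theta_bot']
      rfl
    by_cases hn : ∀ S, 𝒟.Iso S → 𝒟.theta S = 0 →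
      ¬ ((∃ s i, 0 < 𝒟.th s i S) ∨ ∃ l, 𝒟.th (𝒟.arm l) (𝒟.c l) S < 0)
    · have hn' : 𝒟.Null := null_of hn
      -- the shortened configurations have no kernel
      have hc : ∀ l, 𝒟.arm (σ l) = 𝒟.arm l → 1 ≤ 𝒟.c l → ∀ t ∈ 𝒟.K,
          t l ∈ 𝒟.F (𝒟.arm l) (𝒟.c l - 1) → t (σ l) ∈ 𝒟.F (𝒟.arm l) (𝒟.c l - 1) → t = 0 := by
        intro l hl hcl t ht ht1 ht2
        have h3 : (𝒟.setc (𝒟.mv σ l (𝒟.c l - 1))).Semistable := by
          refine semistable_mv g hs hn' hP hl _ fun W => ?_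
          have := (th_step g (𝒟.arm l) (𝒟.c l - 1) W).2
          rwa [Nat.sub_add_cancel hcl] at this
        have h4 : (𝒟.setc (𝒟.mv σ l (𝒟.c l - 1))).T := by
          refine ih _ ?_ _ rfl (g.setc _) (hV.setc _) (hR.setc _) (hP.mv hl _)
          rw [← hm]
          exact sum_mv_lt hP hl (by omega)
        obtain ⟨S, hS, h5⟩ := h4
        have h6 := h3 S hS
        have h7 : finrank L (𝒟.setc (𝒟.mv σ l (𝒟.c l - 1))).K = 0 := by omega
        have h8 := mem_K_mv g hP hl (Nat.sub_le _ 1) ht ht1 ht2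
        rw [Submodule.finrank_eq_zero.mp h7, Submodule.mem_bot] at h8
        exact h8
      obtain ⟨l, hl, hcl⟩ := exists_pair g h2 hs hP (fun l k h => hV.Ω_ne h) hK
      have h3 := finrank_K_le_two g hP hl hcl (hc l hl hcl)
      have h4 := even_finrank_K g h2 hP
      have h5 : finrank L 𝒟.K ≠ 0 := fun h => hK (Submodule.finrank_eq_zero.mp h)
      have h6 : finrank L 𝒟.K = 2 := by
        obtain ⟨a, ha⟩ := h4
        omega
      refine absurd ⟨g, hV, hR, hP, hs, hn', hI, fun c hc' hPc => ?_, h6, hc⟩ (hcrit 𝒟)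
      exact ih _ (by rw [← hm]; exact hc') _ rfl (g.setc _) (hV.setc _) (hR.setc _) hPc
    · push Not at hn
      obtain ⟨S, hS, h0, h3⟩ := hn
      obtain ⟨Z, hZ, hZ0, hr, hθ⟩ := H887.exists_rigid_zero g hs hS h0 h3
      refine Rigid.T_of_IH hr g hZ hZ0 h2 hV hR ⟨σ, hP⟩ hN' hI fun T hT => ?_
      rw [hθ]
      exact hs T (H887.iso_mono hT hZ)
  · obtain ⟨Z, hZ, hr, hpos, hmax⟩ := H887.exists_rigid_max g hs
    refine Rigid.T_of_IH hr g hZ ?_ h2 hV hR ⟨σ, hP⟩ hN' hI fun T _ => hmax T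
    rintro rfl
    rw [H887.theta_bot'] at hpos
    exact lt_irrefl _ hpos

end Cfg

/-- **The frame.** If there is no critical configuration then `T` holds for all versal rich paired
configurations. -/
theorem T_of_no_crit {L : Type u} {J : Type w} [Field L] [Fintype J] [DecidableEq J]
    (h2 : (2 : L) ≠ 0) (hN : N1Hyp L J)
    (hcrit : ∀ (V : Type v) [AddCommGroup V] [Module L V] [FiniteDimensional L V]
      (𝒟 : Cfg L V J) (σ : J → J), ¬ Crit.{u, v, w} 𝒟 σ) (m : ℕ) : IH.{u, v, w} L J m := by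
  induction m with
  | zero => intro V _ _ _ 𝒟 h; exact absurd h (Nat.not_lt_zero _)
  | succ m ih =>
    intro V _ _ _ 𝒟 hm g hV hR hP
    obtain ⟨σ, hσ⟩ := hP
    refine Cfg.T_step h2 hN ?_ σ (fun 𝒟 => hcrit V 𝒟 σ) _ 𝒟 rfl g hV hR hσ
    intro V' _ _ _ 𝒟' h'
    exact ih V' 𝒟' (by omega)

/-- the same for all dimensions -/
theorem T_all_of_no_crit {L : Type u} {J : Type w} [Field L] [Fintype J] [DecidableEq J]
    (h2 : (2 : L) ≠ 0) (hN : N1Hyp L J)
    (hcrit : ∀ (V : Type v) [AddCommGroup V] [Module L V] [FiniteDimensional L V]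
      (𝒟 : Cfg L V J) (σ : J → J), ¬ Crit.{u, v, w} 𝒟 σ)
    {V : Type v} [AddCommGroup V] [Module L V] [FiniteDimensional L V] (𝒟 : Cfg L V J)
    (g : 𝒟.Good) (hV : 𝒟.Versal) (hR : 𝒟.Rich) (hP : 𝒟.Paired) : 𝒟.T :=
  T_of_no_crit h2 hN hcrit (finrank L V + 1) V 𝒟 (Nat.lt_succ_self _) g hV hR hP

end Vale.Agent.P182.B1
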