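import Vale.Agent.P182.H664.Short
import Mathlib.LinearAlgebra.Matrix.ToLinearEquiv

/-!
# The dimension of the kernel is even
-/

namespace Vale.Agent.P182.B1

open Module Matrix Vale.Agent.P182.H533 Vale.Agent.P182.H62

universe u v w

section alt

/-- the rank of a skew form is even -/
theorem even_rank {L X : Type*} [Field L] [AddCommGroup X] [Module L X] [FiniteDimensional L X]
    (h2 : (2 : L) ≠ 0) (B : X →ₗ[L] X →ₗ[L] L) (hB : ∀ x y, B x y = - B y x) :
    ∃ n, Even n ∧ finrank L (LinearMap.ker B) + n = finrank L X := by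
  obtain ⟨W, hW⟩ := Submodule.exists_isCompl (LinearMap.ker B)
  refine ⟨finrank L W, ?_, Submodule.finrank_add_eq_of_isCompl hW⟩
  let b := finBasis L W
  let A : Matrix (Fin (finrank L W)) (Fin (finrank L W)) L := Matrix.of fun i j => B (b i) (b j)
  have hAt : Aᵀ = -A := by
    ext i j
    exact hB _ _
  have hdet : A.det ≠ 0 := by
    intro h0
    obtain ⟨v, hv, hAv⟩ := Matrix.exists_mulVec_eq_zero_iff.mpr h0
    have h1 : ∀ w ∈ W, B w (b.equivFun.symm v : W) = 0 := by
      intro w hw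
      have h3 : ∀ i, B (b i) (b.equivFun.symm v : W) = 0 := by
        intro i
        have h4 := congrFun hAv i
        rw [Basis.equivFun_symm_apply, Submodule.coe_sum, map_sum]
        rw [Matrix.mulVec, dotProduct, Pi.zero_apply] at h4
        rw [← h4]
        refine Finset.sum_congr rfl fun j _ => ?_
        rw [Submodule.coe_smul, map_smul, smul_eq_mul, mul_comm]
        rfl
      have h5 : w = ∑ i, b.repr ⟨w, hw⟩ i • (b i : X) := by
        have h6 := congrArg (fun z : W => (z : X)) (b.sum_repr ⟨w, hw⟩)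
        simp only [Submodule.coe_sum, Submodule.coe_smul] at h6
        exact h6.symm
      rw [h5, map_sum, LinearMap.sum_apply]
      refine Finset.sum_eq_zero fun i _ => ?_
      rw [map_smul, LinearMap.smul_apply, h3, smul_zero]
    have h6 : (b.equivFun.symm v : X) ∈ LinearMap.ker B := by
      rw [LinearMap.mem_ker]
      ext x
      rw [LinearMap.zero_apply, hB, neg_eq_zero]
      have hx : x ∈ LinearMap.ker B ⊔ W := by rw [hW.sup_eq_top]; trivial
      obtain ⟨k, hk, w, hw, rfl⟩ := Submodule.mem_sup.mp hx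
      rw [map_add, LinearMap.add_apply, h1 w hw, LinearMap.mem_ker.mp hk, LinearMap.zero_apply,
        add_zero]
    have h7 : ((b.equivFun.symm v : W) : X) ∈ LinearMap.ker B ⊓ W := ⟨h6, Subtype.mem _⟩
    rw [hW.inf_eq_bot, Submodule.mem_bot] at h7
    have h8 : b.equivFun.symm v = 0 := Subtype.ext h7
    exact hv (by rw [← b.equivFun.apply_symm_apply v, h8, map_zero])
  by_contra hodd
  rw [Nat.not_even_iff_odd] at hodd
  have h3 : A.det = - A.det := by
    conv_lhs => rw [← Matrix.det_transpose, hAt, Matrix.det_neg, Fintype.card_fin, hodd.neg_one_pow]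
    ring
  exact hdet (by
    have h4 : (2 : L) * A.det = 0 := by linear_combination h3
    exact (mul_eq_zero.mp h4).resolve_left h2)

end alt

namespace Cfg

variable {L : Type u} {V : Type v} {J : Type w} [Field L] [AddCommGroup V] [Module L V]
  [FiniteDimensional L V] {𝒟 : Cfg L V J} [Fintype J]

omit [FiniteDimensional L V] in
theorem q_om (t t' : J → V) (g : 𝒟.Good) :
    ∑ l, 𝒟.q (𝒟.om t l) (t' l) = - ∑ l, 𝒟.q (𝒟.om t' l) (t l) := by
  have h1 : ∀ t t' : J → V, ∑ l, 𝒟.q (𝒟.om t l) (t' l) =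
      ∑ l, ∑ k, 𝒟.Ω l k * 𝒟.q (t k) (t' l) := by
    intro t t'
    refine Finset.sum_congr rfl fun l _ => ?_
    rw [om, map_sum, LinearMap.sum_apply]
    refine Finset.sum_congr rfl fun k _ => ?_
    rw [map_smul, LinearMap.smul_apply, smul_eq_mul]
  rw [h1, h1, Finset.sum_comm, ← Finset.sum_neg_distrib]
  refine Finset.sum_congr rfl fun l _ => ?_
  rw [← Finset.sum_neg_distrib]
  refine Finset.sum_congr rfl fun k _ => ?_
  have h2 : 𝒟.Ω l k = - 𝒟.Ω k l := congrFun (congrFun g.skew k) l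
  rw [h2, g.form.symm]
  ring

/-- **The parity of the kernel.** -/
theorem even_finrank_K (g : 𝒟.Good) (h2 : (2 : L) ≠ 0) {σ : J → J} (h : 𝒟.Pairing σ) :
    Even (finrank L 𝒟.K) := by
  classical
  let E := Submodule.pi Set.univ 𝒟.C
  have hE : ∀ t : E, ∀ l, t.1 l ∈ 𝒟.C l := fun t l => (Submodule.mem_pi.mp t.2) l (Set.mem_univ _)
  let B : E →ₗ[L] E →ₗ[L] L := LinearMap.mk₂ L (fun t t' => ∑ l, 𝒟.q (𝒟.om t.1 l) (t'.1 l))
    (by
      intro a b t
      rw [← Finset.sum_add_distrib]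
      refine Finset.sum_congr rfl fun l _ => ?_
      have : 𝒟.om (a + b : E).1 l = 𝒟.om a.1 l + 𝒟.om b.1 l := by
        simp only [om, Submodule.coe_add, Pi.add_apply, smul_add, Finset.sum_add_distrib]
      rw [this, map_add, LinearMap.add_apply])
    (by
      intro c a t
      rw [Finset.smul_sum]
      refine Finset.sum_congr rfl fun l _ => ?_
      have : 𝒟.om (c • a : E).1 l = c • 𝒟.om a.1 l := by
        simp only [om, Submodule.coe_smul, Pi.smul_apply, Finset.smul_sum]
        exact Finset.sum_congr rfl fun k _ => smul_comm _ _ _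
      rw [this, map_smul, LinearMap.smul_apply])
    (by
      intro a b t
      rw [← Finset.sum_add_distrib]
      refine Finset.sum_congr rfl fun l _ => ?_
      rw [Submodule.coe_add, Pi.add_apply, map_add])
    (by
      intro c a t
      rw [Finset.smul_sum]
      refine Finset.sum_congr rfl fun l _ => ?_
      rw [Submodule.coe_smul, Pi.smul_apply, map_smul])
  have hBa : ∀ t t' : E, B t t' = ∑ l, 𝒟.q (𝒟.om t.1 l) (t'.1 l) := fun _ _ => rfl
  obtain ⟨n, hn, hr⟩ := even_rank h2 B fun t t' => q_om _ _ g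
  have h3 : finrank L (LinearMap.ker B) = finrank L 𝒟.K := by
    have h4 : (LinearMap.ker B).map E.subtype = 𝒟.K := by
      ext t
      constructor
      · rintro ⟨t, ht, rfl⟩
        refine ⟨hE t, fun l v hv => ?_⟩
        have h5 := LinearMap.congr_fun (LinearMap.mem_ker.mp ht) ⟨Pi.single l v, by
          rw [Submodule.mem_pi]
          intro k _
          by_cases hk : k = l
          · subst hk; rwa [Pi.single_eq_same]
          · rw [Pi.single_eq_of_ne hk]; exact Submodule.zero_mem _⟩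
        rw [hBa, LinearMap.zero_apply, Finset.sum_eq_single l] at h5
        · simpa using h5
        · intro k _ hk
          show 𝒟.q (𝒟.om t.1 k) ((Pi.single l v : J → V) k) = 0
          rw [Pi.single_eq_of_ne hk, map_zero]
        · intro h; exact absurd (Finset.mem_univ _) h
      · intro ht
        refine ⟨⟨t, Submodule.mem_pi.mpr fun l _ => ht.1 l⟩, ?_, rfl⟩
        show _ ∈ LinearMap.ker B
        rw [LinearMap.mem_ker]
        ext t'
        rw [hBa, LinearMap.zero_apply]
        exact Finset.sum_eq_zero fun l _ => ht.2 l _ (hE t' l)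
    rw [← h4, Submodule.finrank_map_subtype_eq]
  have h4 : finrank L E = ∑ l, finrank L (𝒟.C l) := H887.finrank_pi _
  have h5 : Even ((finrank L E : ℕ) : ℤ) := by
    rw [h4]
    push_cast
    refine even_sum h.invol h.ne _ fun l => ?_
    by_cases hl : 𝒟.arm (σ l) = 𝒟.arm l
    · have : 𝒟.C (σ l) = 𝒟.C l := by rw [C, C, h.same l hl, hl]
      rw [this]
      exact ⟨_, rfl⟩
    · have h6 := finrank_C_cross g (h.cross l hl)
      have h7 := finrank_C_cross g (h.cross (σ l) (by rw [h.invol]; exact Ne.symm hl))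
      exact ⟨finrank L (𝒟.C l), by omega⟩
  rw [h3] at hr
  obtain ⟨a, ha⟩ := hn
  obtain ⟨b, hb⟩ := h5
  rw [Nat.even_iff]
  omega

/-- there is a nonzero pair of columns in one arm -/
theorem exists_pair (g : 𝒟.Good) (h2 : (2 : L) ≠ 0) (hs : 𝒟.Semistable) {σ : J → J}
    (h : 𝒟.Pairing σ) (hΩ : ∀ l k, l ≠ k → 𝒟.Ω l k ≠ 0) (hK : 𝒟.K ≠ ⊥) :
    ∃ l, 𝒟.arm (σ l) = 𝒟.arm l ∧ 1 ≤ 𝒟.c l := by
  classical
  by_contra hno
  push Not at hno
  have hC0 : ∀ l, 𝒟.arm (σ l) = 𝒟.arm l → 𝒟.C l = ⊥ := by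
    intro l hl
    have h3 := hno l hl
    have h4 : 𝒟.c l = 0 := by omega
    rw [C, h4, g.zero]
  obtain ⟨t, ht, h0⟩ := Submodule.exists_mem_ne_zero_of_ne_bot hK
  obtain ⟨l₀, hl₀⟩ : ∃ l, t l ≠ 0 := by
    by_contra h'
    push Not at h'
    exact h0 (funext h')
  have hcr : 𝒟.arm (σ l₀) ≠ 𝒟.arm l₀ := by
    intro h'
    have := ht.1 l₀
    rw [hC0 l₀ h', Submodule.mem_bot] at this
    exact hl₀ this
  have hcr' : 𝒟.arm (σ (σ l₀)) ≠ 𝒟.arm (σ l₀) := by rw [h.invol]; exact Ne.symm hcr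
  have hL0 := h.cross l₀ hcr
  have hL1 := h.cross (σ l₀) hcr'
  -- the vector `t l₀` lies in both maximal isotropic columns
  have h3 : t l₀ ∈ 𝒟.C (σ l₀) := by
    have h4 := ht.2 (σ l₀)
    have h5 : 𝒟.om t (σ l₀) = 𝒟.Ω (σ l₀) l₀ • t l₀ := by
      rw [om, Finset.sum_eq_single l₀]
      · intro k _ hk
        by_cases hkc : 𝒟.arm (σ k) = 𝒟.arm k
        · have := ht.1 k
          rw [hC0 k hkc, Submodule.mem_bot] at this
          rw [this, smul_zero]
        · rcases h.one l₀ k hcr hkc with h6 | h6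
          · exact absurd h6 hk
          · have h7 : 𝒟.Ω (σ l₀) k = 0 := by
              rw [h6]
              have h8 : 𝒟.Ω (σ l₀) (σ l₀) = - 𝒟.Ω (σ l₀) (σ l₀) :=
                congrFun (congrFun g.skew (σ l₀)) (σ l₀)
              have h9 : (2 : L) * 𝒟.Ω (σ l₀) (σ l₀) = 0 := by linear_combination h8
              exact (mul_eq_zero.mp h9).resolve_left h2
            rw [h7, zero_smul]
      · intro h; exact absurd (Finset.mem_univ _) h
    rw [h5] at h4
    exact mem_C_of_null g hL1 ((Submodule.smul_mem_iff _ (hΩ _ _ (h.ne l₀))).mp h4)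
      (g.iso _ _ (ht.1 l₀) _ (ht.1 l₀))
  set S := 𝒟.C l₀ ⊓ 𝒟.C (σ l₀) with hSdef
  have hS0 : t l₀ ∈ S := ⟨ht.1 l₀, h3⟩
  have hSiso : 𝒟.Iso S := inf_le_left.trans ((g.iso _ _).trans (perp_anti inf_le_left))
  have hpos : 0 < finrank L S := by
    rw [Module.finrank_pos_iff]
    exact Submodule.nontrivial_iff_ne_bot.mpr fun h' => hl₀ (by rwa [h', Submodule.mem_bot] at hS0)
  have hth : ∀ k, 𝒟.arm (σ k) ≠ 𝒟.arm k → S ≤ 𝒟.C k → 𝒟.th (𝒟.arm k) (𝒟.c k) S = finrank L S := by
    intro k hk hSk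
    rw [th_C_cross g (h.cross k hk) hSiso, inf_eq_left.mpr hSk]
    ring
  have h6 : 0 < 𝒟.theta S := by
    have h7 : ∀ k, 0 ≤ 𝒟.th (𝒟.arm k) (𝒟.c k) S := by
      intro k
      by_cases hkc : 𝒟.arm (σ k) = 𝒟.arm k
      · rw [th]
        change 0 ≤ (finrank L (S ⊓ 𝒟.C k : Submodule L V) : ℤ) +
          finrank L (S ⊓ perp 𝒟.q (𝒟.C k) : Submodule L V) - finrank L S
        rw [hC0 k hkc, perp_bot, inf_bot_eq, inf_top_eq, finrank_bot]
        simp
      · rcases h.one l₀ k hcr hkc with rfl | rfl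
        · rw [hth _ hcr inf_le_left]
          exact Int.natCast_nonneg _
        · rw [hth _ hcr' inf_le_right]
          exact Int.natCast_nonneg _
    have h8 : 𝒟.th (𝒟.arm l₀) (𝒟.c l₀) S ≤ 𝒟.theta S :=
      Finset.single_le_sum (f := fun k => 𝒟.th (𝒟.arm k) (𝒟.c k) S) (fun k _ => h7 k)
        (Finset.mem_univ l₀)
    rw [hth _ hcr inf_le_left] at h8
    omega
  exact absurd (hs S hSiso) (not_le.mpr h6)

end Cfg

end Vale.Agent.P182.B1
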