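import Vale.Agent.P182.H62.CIso

/-!
# Subquotients of configurations: base change, iteration, and `Ext`
-/

namespace Vale.Agent.P182.B1

open Module Matrix TensorProduct Vale.Agent.P182.H533 Vale.Agent.P182.H62

universe u v v' v'' w

section of

variable {L : Type u} {J : Type w} [Field L] {V : Type v} [AddCommGroup V] [Module L V]
  {V' : Type v'} [AddCommGroup V'] [Module L V'] {𝒟 : Cfg L V J} {𝒟' : Cfg L V' J}

/-- isomorphisms from a subquotient -/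
noncomputable def cIsoSQ (g : 𝒟.Good) (S : Submodule L V) (φ : ↥(perp 𝒟.q S) →ₗ[L] V')
    (hφ : Function.Surjective φ) (h0 : ∀ u, φ u = 0 ↔ (u : V) ∈ S)
    (hq : ∀ u v, 𝒟'.q (φ u) (φ v) = 𝒟.q u v)
    (hF : ∀ s i x, x ∈ 𝒟'.F s i ↔ ∃ w : ↥(perp 𝒟.q S), (w : V) ∈ 𝒟.F s i ∧ φ w = x)
    (harm : 𝒟'.arm = 𝒟.arm) (hc : 𝒟'.c = 𝒟.c) (hΩ : 𝒟'.Ω = 𝒟.Ω) : CIso (sq 𝒟 g S) 𝒟' := by
  have hk : S.comap (perp 𝒟.q S).subtype = LinearMap.ker φ := by
    ext u
    rw [LinearMap.mem_ker, h0]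
    rfl
  let e : SQ 𝒟.q S ≃ₗ[L] V' :=
    (Submodule.quotEquivOfEq _ _ hk).trans (φ.quotKerEquivOfSurjective hφ)
  have he : ∀ u : ↥(perp 𝒟.q S), e (SQmk S u) = φ u := fun u => rfl
  refine ⟨e, ?_, ?_, harm, hc, hΩ⟩
  · intro x y
    obtain ⟨u, rfl⟩ := SQmk_surjective S x
    obtain ⟨v, rfl⟩ := SQmk_surjective S y
    rw [he, he, hq]
    rfl
  · intro s i
    ext x
    rw [hF, Submodule.mem_map]
    constructor
    · rintro ⟨y, hy, rfl⟩
      obtain ⟨w, hw, rfl⟩ := (mem_SQim S).mp hy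
      exact ⟨w, hw, (he w).symm⟩
    · rintro ⟨w, hw, rfl⟩
      exact ⟨SQmk S w, SQmk_mem_SQim S hw, he w⟩

/-- the inverse isomorphism -/
noncomputable def cIsoSymm (e : CIso 𝒟 𝒟') : CIso 𝒟' 𝒟 where
  e := e.e.symm
  q := fun x y => by
    rw [← e.q, LinearEquiv.apply_symm_apply, LinearEquiv.apply_symm_apply]
  F := fun s i => by
    rw [← e.F s i]
    ext x
    rw [Submodule.mem_map]
    constructor
    · rintro ⟨_, ⟨z, hz, rfl⟩, rfl⟩
      show e.e.symm (e.e z) ∈ _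
      rw [LinearEquiv.symm_apply_apply]
      exact hz
    · intro hx
      exact ⟨e.e x, ⟨x, hx, rfl⟩, e.e.symm_apply_apply x⟩
  arm := e.arm.symm
  c := e.c.symm
  Ω := e.Ω.symm

end of

section bot

variable {L : Type u} {J : Type w} [Field L] {V : Type v} [AddCommGroup V] [Module L V]
  {𝒟 : Cfg L V J}

/-- the subquotient of `⊥` -/
noncomputable def cIsoBot (g : 𝒟.Good) : CIso (sq 𝒟 g ⊥) 𝒟 :=
  cIsoSQ g ⊥ (perp 𝒟.q ⊥).subtype
    (fun v => ⟨⟨v, by rw [perp_bot]; trivial⟩, rfl⟩)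
    (fun u => by rw [Submodule.mem_bot]; exact Iff.rfl)
    (fun u v => rfl)
    (fun s i x => ⟨fun h => ⟨⟨x, by rw [perp_bot]; trivial⟩, h, rfl⟩, by
      rintro ⟨w, hw, rfl⟩
      exact hw⟩)
    rfl rfl rfl

end bot

section iter

variable {L : Type u} {J : Type w} [Field L] {V : Type v} [AddCommGroup V] [Module L V]
  {𝒟 : Cfg L V J}

/-- iterated subquotients -/
theorem exists_cIsoIter (g : 𝒟.Good) {S : Submodule L V} (hS : 𝒟.Iso S)
    (g' : (sq 𝒟 g S).Good) (T : Submodule L (SQ 𝒟.q S)) :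
    Nonempty (CIso (sq (sq 𝒟 g S) g' T) (sq 𝒟 g (SQpre S T))) := by
  have hP : ∀ u ∈ perp 𝒟.q (SQpre S T), u ∈ perp 𝒟.q S := fun u hu =>
    perp_anti (le_SQpre S hS T) hu
  have hP' : ∀ u : ↥(perp 𝒟.q (SQpre S T)), SQmk S ⟨u, hP u u.2⟩ ∈ perp (sq 𝒟 g S).q T := by
    intro u x hx
    obtain ⟨w, rfl⟩ := SQmk_surjective S x
    exact u.2 w ((mem_SQpre S).mpr ⟨w.2, hx⟩)
  let φ : ↥(perp 𝒟.q (SQpre S T)) →ₗ[L] SQ (sq 𝒟 g S).q T :=
    { toFun := fun u => SQmk T ⟨SQmk S ⟨u, hP u u.2⟩, hP' u⟩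
      map_add' := fun a b => rfl
      map_smul' := fun x a => rfl }
  have hφ : ∀ u, φ u = SQmk T ⟨SQmk S ⟨u, hP u u.2⟩, hP' u⟩ := fun u => rfl
  -- a lift
  have hl : ∀ y : ↥(perp (sq 𝒟 g S).q T), ∀ w : ↥(perp 𝒟.q S), SQmk S w = y →
      (w : V) ∈ perp 𝒟.q (SQpre S T) := by
    intro y w hw v hv
    obtain ⟨h1, h2⟩ := (mem_SQpre S).mp hv
    have h3 := y.2 _ h2
    rw [← hw] at h3
    exact h3
  refine ⟨cIsoSymm (cIsoSQ g (SQpre S T) φ ?_ ?_ ?_ ?_ rfl rfl rfl)⟩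
  · intro z
    obtain ⟨y, rfl⟩ := SQmk_surjective T z
    obtain ⟨w, hw⟩ := SQmk_surjective S (y : SQ 𝒟.q S)
    refine ⟨⟨w, hl y w hw⟩, ?_⟩
    rw [hφ]
    congr 1
    exact Subtype.ext hw
  · intro u
    rw [hφ, SQmk_eq_zero, mem_SQpre]
    exact ⟨fun h => ⟨hP u u.2, h⟩, fun ⟨_, h⟩ => h⟩
  · intro u v
    rfl
  · intro s i x
    show x ∈ SQim T (SQim S (𝒟.F s i)) ↔ _
    rw [mem_SQim]
    constructor
    · rintro ⟨y, hy, rfl⟩
      obtain ⟨w, hw, h1⟩ := (mem_SQim S).mp hy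
      refine ⟨⟨w, hl y w h1⟩, hw, ?_⟩
      rw [hφ]
      congr 1
      exact Subtype.ext h1
    · rintro ⟨w, hw, rfl⟩
      exact ⟨⟨SQmk S ⟨w, hP w w.2⟩, hP' w⟩, SQmk_mem_SQim S hw, rfl⟩

end iter

section bc

variable {L : Type u} {J : Type w} [Field L] {V : Type v} [AddCommGroup V] [Module L V]
  {𝒟 : Cfg L V J} (L' : Type u) [Field L'] [Algebra L L']

/-- the inclusion `L' ⊗ P → L' ⊗ V` is compatible with `ev` -/
theorem ev_baseChange {W : Type*} [AddCommGroup W] [Module L W] (p : V →ₗ[L] W)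
    (f : L' →ₗ[L] L) (x : L' ⊗[L] V) : ev f (p.baseChange L' x) = p (ev f x) := by
  induction x with
  | zero => rw [map_zero, map_zero, map_zero, map_zero]
  | tmul a v => rw [LinearMap.baseChange_tmul, ev_tmul, ev_tmul, map_smul]
  | add x y hx hy => rw [map_add, map_add, hx, hy, map_add, map_add]

theorem injective_baseChange {W : Type*} [AddCommGroup W] [Module L W] {p : V →ₗ[L] W}
    (hp : Function.Injective p) : Function.Injective (p.baseChange L') := by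
  rw [← LinearMap.ker_eq_bot, LinearMap.ker_eq_bot']
  intro x hx
  refine ev_sep fun f => hp ?_
  rw [← ev_baseChange, hx, map_zero, map_zero]

theorem surjective_baseChange {W : Type*} [AddCommGroup W] [Module L W] {p : V →ₗ[L] W}
    (hp : Function.Surjective p) : Function.Surjective (p.baseChange L') :=
  LinearMap.lTensor_surjective L' hp

theorem qbc_baseChange {W : Type*} [AddCommGroup W] [Module L W] (p : V →ₗ[L] W)
    (q : V →ₗ[L] V →ₗ[L] L) (q' : W →ₗ[L] W →ₗ[L] L) (h : ∀ u v, q' (p u) (p v) = q u v)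
    (x y : L' ⊗[L] V) : qbc L' q' (p.baseChange L' x) (p.baseChange L' y) = qbc L' q x y := by
  induction x with
  | zero => simp
  | tmul a u =>
    induction y with
    | zero => simp
    | tmul b v => rw [LinearMap.baseChange_tmul, LinearMap.baseChange_tmul, qbc_tmul, qbc_tmul, h]
    | add y z hy hz => rw [map_add, map_add, map_add, hy, hz]
  | add x z hx hz =>
    rw [map_add, map_add, map_add, LinearMap.add_apply, LinearMap.add_apply, hx, hz]

variable {L'}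

/-- **base change of a subquotient** -/
theorem exists_cIsoBC (g : 𝒟.Good) (S : Submodule L V) :
    Nonempty (CIso (bcC (sq 𝒟 g S) L') (sq (bcC 𝒟 L') (good_bcC g) (S.baseChange L'))) := by
  let ι : L' ⊗[L] ↥(perp 𝒟.q S) →ₗ[L'] L' ⊗[L] V := (perp 𝒟.q S).subtype.baseChange L'
  have hι : Function.Injective ι := injective_baseChange L' (perp 𝒟.q S).injective_subtype
  have hr : perp (bcC 𝒟 L').q (S.baseChange L') = LinearMap.range ι := perp_bc 𝒟.q S
  let φ : ↥(perp (bcC 𝒟 L').q (S.baseChange L')) →ₗ[L'] L' ⊗[L] SQ 𝒟.q S :=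
    (SQmk S).baseChange L' ∘ₗ
      ((LinearEquiv.ofEq _ _ hr).trans (LinearEquiv.ofInjective ι hι).symm).toLinearMap
  have hφ : ∀ (u : ↥(perp (bcC 𝒟 L').q (S.baseChange L'))) (z : L' ⊗[L] ↥(perp 𝒟.q S)),
      ι z = u → φ u = (SQmk S).baseChange L' z := by
    intro u z h
    show (SQmk S).baseChange L' _ = _
    congr 1
    show (LinearEquiv.ofInjective ι hι).symm (LinearEquiv.ofEq _ _ hr u) = z
    rw [LinearEquiv.symm_apply_eq]
    exact Subtype.ext h.symm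
  have hz : ∀ u : ↥(perp (bcC 𝒟 L').q (S.baseChange L')), ∃ z, ι z = u := by
    intro u
    have h1 : (u : L' ⊗[L] V) ∈ LinearMap.range ι := by rw [← hr]; exact u.2
    exact h1
  have hm : ∀ z, ι z ∈ perp (bcC 𝒟 L').q (S.baseChange L') := by
    intro z
    rw [hr]
    exact LinearMap.mem_range_self _ z
  refine ⟨cIsoSymm (cIsoSQ (good_bcC g) (S.baseChange L') φ ?_ ?_ ?_ ?_ rfl rfl rfl)⟩
  · intro y
    obtain ⟨z, rfl⟩ := surjective_baseChange L' (SQmk_surjective (q := 𝒟.q) S) y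
    exact ⟨⟨ι z, hm z⟩, hφ _ z rfl⟩
  · intro u
    obtain ⟨z, h⟩ := hz u
    rw [hφ u z h, ← h, mem_bc_iff]
    constructor
    · intro h0 f
      have h1 := ev_baseChange L' (SQmk (q := 𝒟.q) S) f z
      rw [h0, map_zero] at h1
      have h2 : ev f (ι z) = (perp 𝒟.q S).subtype (ev f z) := ev_baseChange L' _ f z
      rw [h2]
      exact (SQmk_eq_zero S).mp h1.symm
    · intro h0
      refine ev_sep fun f => ?_
      rw [ev_baseChange, SQmk_eq_zero]
      have h2 : ev f (ι z) = (perp 𝒟.q S).subtype (ev f z) := ev_baseChange L' _ f z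
      have h3 := h0 f
      rw [h2] at h3
      exact h3
  · intro u v
    obtain ⟨z, h⟩ := hz u
    obtain ⟨y, h'⟩ := hz v
    rw [hφ u z h, hφ v y h', ← h, ← h']
    show qbc L' (qSQ S g.form) _ _ = qbc L' 𝒟.q _ _
    rw [qbc_baseChange L' (SQmk (q := 𝒟.q) S) (𝒟.q.domRestrict₁₂ (perp 𝒟.q S) (perp 𝒟.q S))
      (qSQ S g.form) (fun u v => qSQ_apply S g.form u v)]
    exact (qbc_baseChange L' (perp 𝒟.q S).subtype
      (𝒟.q.domRestrict₁₂ (perp 𝒟.q S) (perp 𝒟.q S)) 𝒟.q (fun u v => rfl) z y).symm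
  · intro s i x
    show x ∈ (SQim S (𝒟.F s i)).baseChange L' ↔ ∃ w : ↥(perp (bcC 𝒟 L').q (S.baseChange L')),
      (w : L' ⊗[L] V) ∈ (𝒟.F s i).baseChange L' ∧ φ w = x
    constructor
    · intro hx
      have h1 : (SQim S (𝒟.F s i)).baseChange L' ≤
          (((𝒟.F s i).baseChange L').comap
            (perp (bcC 𝒟 L').q (S.baseChange L')).subtype).map φ := by
        rw [Submodule.baseChange_eq_span, Submodule.span_le]
        rintro _ ⟨y, hy, rfl⟩
        obtain ⟨w, hw, rfl⟩ := (mem_SQim S).mp hy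
        refine ⟨⟨ι (1 ⊗ₜ w), hm _⟩, ?_, ?_⟩
        · exact Submodule.tmul_mem_baseChange_of_mem 1 hw
        · rw [hφ _ (1 ⊗ₜ w) rfl]
          rfl
      obtain ⟨w, hw, h2⟩ := h1 hx
      exact ⟨w, hw, h2⟩
    · rintro ⟨u, hu, rfl⟩
      obtain ⟨z, h⟩ := hz u
      rw [hφ u z h, mem_bc_iff]
      intro f
      rw [ev_baseChange]
      refine SQmk_mem_SQim S ?_
      have h2 : ev f (ι z) = (perp 𝒟.q S).subtype (ev f z) := ev_baseChange L' _ f z
      rw [← h, mem_bc_iff] at hu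
      have h3 := hu f
      rw [h2] at h3
      exact h3

end bc

section ext

variable {L : Type u} {J : Type w} [Field L] {V : Type u} [AddCommGroup V] [Module L V]
  [Fintype J] {𝒟 : Cfg L V J} {L' : Type u} [Field L'] [Algebra L L']

theorem extZero_iff {S : Submodule L V} : ExtZero 𝒟 S ↔ ∀ y : J → Dual L ↥S,
    (∀ l, ∀ v : ↥S, (v : V) ∈ perp 𝒟.q (𝒟.C l) → y l v = 0) →
    (∀ l, ∀ v : ↥S, (v : V) ∈ 𝒟.C l → ∑ k, 𝒟.Ω l k * y k v = 0) → y = 0 := by
  rw [ExtZero, Submodule.eq_bot_iff]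
  refine forall_congr' fun y => ?_
  rw [H887.mem_HomD]
  constructor
  · intro h h1 h2
    refine h ⟨h1, fun l v hv => ?_⟩
    rw [H887.om_dual_apply]
    exact h2 l v hv
  · rintro h ⟨h1, h2⟩
    refine h h1 fun l v hv => ?_
    rw [← H887.om_dual_apply]
    exact h2 l v hv

/-- base change of `Ext(N, S) = 0` -/
theorem extZero_bc {S : Submodule L V} (h : ExtZero 𝒟 S) :
    ExtZero (bcC 𝒟 L') (S.baseChange L') := by
  rw [extZero_iff] at h ⊢
  intro y h1 h2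
  have hm : ∀ s : ↥S, (1 : L') ⊗ₜ[L] (s : V) ∈ S.baseChange L' := fun s =>
    Submodule.tmul_mem_baseChange_of_mem 1 s.2
  have h3 : ∀ (f : L' →ₗ[L] L) (l : J) (s : ↥S), f (y l ⟨1 ⊗ₜ s, hm s⟩) = 0 := by
    intro f
    let z : J → Dual L ↥S := fun l =>
      { toFun := fun s => f (y l ⟨1 ⊗ₜ s, hm s⟩)
        map_add' := fun a b => by
          have : (⟨1 ⊗ₜ ((a + b : ↥S) : V), hm (a + b)⟩ : ↥(S.baseChange L')) =
              ⟨1 ⊗ₜ a, hm a⟩ + ⟨1 ⊗ₜ b, hm b⟩ := Subtype.ext (TensorProduct.tmul_add _ _ _)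
          rw [this, map_add, map_add]
        map_smul' := fun c a => by
          have : (⟨1 ⊗ₜ ((c • a : ↥S) : V), hm (c • a)⟩ : ↥(S.baseChange L')) =
              (algebraMap L L' c) • ⟨1 ⊗ₜ a, hm a⟩ := Subtype.ext (by
            show (1 : L') ⊗ₜ[L] (c • (a : V)) = (algebraMap L L' c) • ((1 : L') ⊗ₜ[L] (a : V))
            rw [TensorProduct.tmul_smul, algebraMap_smul])
          rw [this, map_smul, RingHom.id_apply, smul_eq_mul, ← Algebra.smul_def, map_smul] }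
    have hz : z = 0 := by
      refine h z (fun l v hv => ?_) fun l v hv => ?_
      · show f (y l _) = 0
        rw [h1 l ⟨1 ⊗ₜ v, hm v⟩ (by
          rw [perp_bcC_C]
          exact Submodule.tmul_mem_baseChange_of_mem 1 hv), map_zero]
      · have h4 := h2 l ⟨1 ⊗ₜ v, hm v⟩ (Submodule.tmul_mem_baseChange_of_mem 1 hv)
        have h5 : ∑ k, 𝒟.Ω l k * z k v =
            f (∑ k, (bcC 𝒟 L').Ω l k * y k ⟨1 ⊗ₜ v, hm v⟩) := by
          rw [map_sum]
          refine Finset.sum_congr rfl fun k _ => ?_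
          show 𝒟.Ω l k * f (y k ⟨1 ⊗ₜ v, hm v⟩) =
            f (algebraMap L L' (𝒟.Ω l k) * y k ⟨1 ⊗ₜ v, hm v⟩)
          rw [← Algebra.smul_def, map_smul, smul_eq_mul]
        rw [h5, h4, map_zero]
    intro l s
    exact LinearMap.congr_fun (congrFun hz l) s
  have h4 : ∀ (l : J) (s : ↥S), y l ⟨1 ⊗ₜ s, hm s⟩ = 0 := fun l s => fun_sep fun f => h3 f l s
  funext l
  refine LinearMap.ext ?_
  rintro ⟨x, hx⟩
  have h5 : Submodule.span L' ((S.map (TensorProduct.mk L L' V 1) : Submodule L (L' ⊗[L] V)) :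
      Set (L' ⊗[L] V)) ≤ (LinearMap.ker (y l)).map (S.baseChange L').subtype := by
    rw [Submodule.span_le]
    rintro _ ⟨s, hs, rfl⟩
    exact ⟨⟨1 ⊗ₜ s, hm ⟨s, hs⟩⟩, LinearMap.mem_ker.mpr (h4 l ⟨s, hs⟩), rfl⟩
  have hx' := hx
  rw [Submodule.baseChange_eq_span] at hx'
  obtain ⟨z, hz, h6⟩ := h5 hx'
  have h7 : z = ⟨x, hx⟩ := Subtype.ext h6
  rw [← h7]
  exact LinearMap.mem_ker.mp hz

/-- `Ext(N, -) = 0` for an extension -/
theorem extZero_SQpre [FiniteDimensional L V] (g : 𝒟.Good) {S : Submodule L V} (hS : 𝒟.Iso S)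
    {T : Submodule L (SQ 𝒟.q S)} (h1 : ExtZero 𝒟 S) (h2 : ExtZero (sq 𝒟 g S) T) :
    ExtZero 𝒟 (SQpre S T) := by
  rw [extZero_iff] at h1 h2 ⊢
  intro y h3 h4
  have hle := le_SQpre (q := 𝒟.q) S hS T
  -- `y` vanishes on `S`
  have h5 : ∀ l, ∀ s : ↥S, y l ⟨s, hle s.2⟩ = 0 := by
    have h6 := h1 (fun l => y l ∘ₗ Submodule.inclusion hle) (fun l v hv => h3 l _ hv)
      (fun l v hv => h4 l _ hv)
    intro l s
    exact LinearMap.congr_fun (congrFun h6 l) s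
  -- the induced functionals
  have hsurj : ∀ t : ↥T, ∃ w : ↥(SQpre S T), ∃ h : (w : V) ∈ perp 𝒟.q S,
      SQmk S ⟨w, h⟩ = t := by
    intro t
    obtain ⟨u, hu⟩ := SQmk_surjective S (t : SQ 𝒟.q S)
    exact ⟨⟨u, (mem_SQpre S).mpr ⟨u.2, by rw [show SQmk S ⟨(u : V), u.2⟩ = SQmk S u from rfl, hu]
                                          exact t.2⟩⟩, u.2, hu⟩
  choose w hw hwt using hsurj
  have key : ∀ l (t : ↥T) (v : ↥(SQpre S T)) (h : (v : V) ∈ perp 𝒟.q S),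
      SQmk S ⟨v, h⟩ = t → y l (w t) = y l v := by
    intro l t v h hv
    have h6 : SQmk S (⟨w t, hw t⟩ - ⟨v, h⟩) = 0 := by rw [map_sub, hwt, hv, sub_self]
    rw [SQmk_eq_zero] at h6
    have h7 := h5 l ⟨_, h6⟩
    rw [← sub_eq_zero, ← map_sub]
    exact h7
  let z : J → Dual L ↥T := fun l =>
    { toFun := fun t => y l (w t)
      map_add' := fun a b => by
        rw [← map_add]
        exact key l _ _ (Submodule.add_mem _ (hw a) (hw b))
          (congrArg₂ (fun x y => x + y) (hwt a) (hwt b) :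
            SQmk S ⟨w a, hw a⟩ + SQmk S ⟨w b, hw b⟩ = (a : SQ 𝒟.q S) + b)
      map_smul' := fun c a => by
        rw [RingHom.id_apply, ← map_smul]
        exact key l _ _ (Submodule.smul_mem _ c (hw a))
          (congrArg (fun x => c • x) (hwt a) : c • SQmk S ⟨w a, hw a⟩ = c • (a : SQ 𝒟.q S)) }
  have hz : z = 0 := by
    refine h2 z (fun l t ht => ?_) fun l t ht => ?_
    · rw [perp_sq_C g hS] at ht
      obtain ⟨v, hv, hvt⟩ := (mem_SQim S).mp ht
      have hv' : (v : V) ∈ SQpre S T := (mem_SQpre S).mpr ⟨v.2, by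
        rw [show SQmk S ⟨(v : V), v.2⟩ = SQmk S v from rfl, hvt]
        exact t.2⟩
      show y l (w t) = 0
      rw [key l t ⟨v, hv'⟩ v.2 hvt]
      exact h3 l _ hv
    · obtain ⟨v, hv, hvt⟩ := (mem_SQim S).mp ht
      have hv' : (v : V) ∈ SQpre S T := (mem_SQpre S).mpr ⟨v.2, by
        rw [show SQmk S ⟨(v : V), v.2⟩ = SQmk S v from rfl, hvt]
        exact t.2⟩
      show ∑ k, 𝒟.Ω l k * y k (w t) = 0
      have h8 : ∀ k, y k (w t) = y k ⟨v, hv'⟩ := fun k => key k t ⟨v, hv'⟩ v.2 hvt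
      simp_rw [h8]
      exact h4 l _ hv
  funext l
  refine LinearMap.ext fun v => ?_
  obtain ⟨h8, h9⟩ := (mem_SQpre S).mp v.2
  rw [← key l ⟨_, h9⟩ v h8 rfl]
  exact LinearMap.congr_fun (congrFun hz l) ⟨_, h9⟩

end ext

end Vale.Agent.P182.B1
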