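import Vale.Agent.P182.H664.Rigid0

/-!
# A rigid isotropic subspace is stable under the flag preserving connections
-/

namespace Vale.Agent.P182.B1

open Module Matrix Vale.Agent.P182.H533

universe u v w

namespace Cfg

variable {L : Type u} {V : Type v} {J : Type w} [Field L] [AddCommGroup V] [Module L V]
  {𝒟 : Cfg L V J}

/-- the second half of the flag is compatible with the first, by the metric -/
theorem conn_perp (n : Conn 𝒟.q) {Y : End L V} (hY : IsSk 𝒟.q Y) {W : Submodule L V}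
    (h : ∀ v ∈ W, n.δ v - Y v ∈ W) : ∀ v ∈ perp 𝒟.q W, n.δ v - Y v ∈ perp 𝒟.q W := by
  intro v hv w hw
  have h1 := n.metric v w
  rw [hv w hw, map_zero] at h1
  have h2 : 𝒟.q v (n.δ w - Y w) = 0 := hv _ (h w hw)
  rw [map_sub] at h2
  rw [map_sub, LinearMap.sub_apply, hY]
  linear_combination -h1 - h2

/-- a rigid subspace is stable -/
theorem Rigid.stable {S : Submodule L V} (hr : 𝒟.Rigid S) (n : Conn 𝒟.q) {Y : Fin 3 → End L V}
    (hY : ∀ s, IsSk 𝒟.q (Y s)) (hYS : ∀ s, ∀ v ∈ S, Y s v ∈ S)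
    (h : ∀ s i, ∀ v ∈ 𝒟.F s i, n.δ v - Y s v ∈ 𝒟.F s i) : ∀ v ∈ S, n.δ v ∈ S := by
  have key : ∀ s, ∀ W : Submodule L V, (∀ v ∈ W, n.δ v - Y s v ∈ W) → ∀ v ∈ S, v ∈ W →
      S.mkQ (n.δ v) ∈ W.map S.mkQ := by
    intro s W hW v hvS hvW
    refine ⟨n.δ v - Y s v, hW v hvW, ?_⟩
    have h1 : S.mkQ (Y s v) = 0 := (Submodule.Quotient.mk_eq_zero S).mpr (hYS s v hvS)
    rw [map_sub, h1, sub_zero]
  let eps : S →ₗ[L] V ⧸ S :=
    { toFun := fun v => S.mkQ (n.δ v)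
      map_add' := fun u v => by rw [Submodule.coe_add, map_add, map_add]
      map_smul' := fun a v => by
        have h1 : S.mkQ (n.d a • (v : V)) = 0 :=
          (Submodule.Quotient.mk_eq_zero S).mpr (S.smul_mem _ v.2)
        rw [Submodule.coe_smul, n.smul, map_add, h1, zero_add, map_smul]
        rfl }
  have h0 : eps = 0 := hr eps (fun s i v hv => key s _ (h s i) v v.2 hv)
    fun s i v hv => key s _ (conn_perp n (hY s) (h s i)) v v.2 hv
  intro v hv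
  have h1 : eps ⟨v, hv⟩ = 0 := by rw [h0]; rfl
  exact (Submodule.Quotient.mk_eq_zero S).mp h1

/-- **(P1)**: a rigid isotropic subspace gives a versal object of the `J`-model -/
theorem Rigid.glVersal' {S : Submodule L V} (hr : 𝒟.Rigid S) (hV : 𝒟.Versal)
    (hlift : ∀ r : End L S, ∃ Y : End L V, IsSk 𝒟.q Y ∧ ∀ v : S, Y v = r v) :
    GLVersal 𝒟.Ω 𝒟.arm (fun l => (𝒟.C l).comap S.subtype)
      (fun l => (perp 𝒟.q (𝒟.C l)).comap S.subtype) := by
  intro r η hη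
  choose Y hY hYr using fun s => hlift (r s)
  obtain ⟨n, hn, hnΩ⟩ := hV Y hY η hη
  have hst := hr.stable n hY (fun s v hv => by rw [hYr s ⟨v, hv⟩]; exact (r s _).2) hn
  refine ⟨⟨n.d, ⟨⟨fun v => ⟨n.δ v, hst v v.2⟩, ?_⟩, ?_⟩, n.leib, ?_⟩, ?_, ?_, hnΩ⟩
  · exact Subtype.ext (map_zero _)
  · intro u v
    exact Subtype.ext (map_add _ _ _)
  · intro a v
    exact Subtype.ext (n.smul a v)
  · intro l v hv
    have h1 := hn (𝒟.arm l) (𝒟.c l) v hv
    show ((⟨n.δ v, _⟩ - r (𝒟.arm l) v : S) : V) ∈ 𝒟.C l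
    rw [Submodule.coe_sub, ← hYr]
    exact h1
  · intro l v hv
    have h1 := conn_perp n (hY (𝒟.arm l)) (hn (𝒟.arm l) (𝒟.c l)) v hv
    show ((⟨n.δ v, _⟩ - r (𝒟.arm l) v : S) : V) ∈ perp 𝒟.q (𝒟.C l)
    rw [Submodule.coe_sub, ← hYr]
    exact h1

end Cfg

end Vale.Agent.P182.B1
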