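import Vale.Agent.P182.H664.Lang

/-!
# Rigid subspaces
-/

namespace Vale.Agent.P182.B1

open Module Matrix Vale.Agent.P182.H533

universe u v w

namespace Cfg

variable {L : Type u} {V : Type v} {J : Type w} [Field L] [AddCommGroup V] [Module L V]

/-- `S` is rigid: there is no nonzero flag compatible linear map `S → V/S` -/
def Rigid (𝒟 : Cfg L V J) (S : Submodule L V) : Prop :=
  ∀ eps : S →ₗ[L] V ⧸ S,
    (∀ s i, ∀ v : S, (v : V) ∈ 𝒟.F s i → eps v ∈ (𝒟.F s i).map S.mkQ) →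
    (∀ s i, ∀ v : S, (v : V) ∈ perp 𝒟.q (𝒟.F s i) → eps v ∈ (perp 𝒟.q (𝒟.F s i)).map S.mkQ) →
    eps = 0

end Cfg

end Vale.Agent.P182.B1
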