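import Vale.Agent.P182.H664.Rigid
import Vale.Agent.P182.H62.MS
import Vale.Agent.P182.H62.Witt
import Vale.Agent.P182.H887.MTJ
import Vale.Agent.P182.H887.Max

/-!
# The subquotient of a rigid isotropic subspace and the reduction to smaller dimension
-/

namespace Vale.Agent.P182.B1

open Module Matrix Vale.Agent.P182.H533 Vale.Agent.P182.H62

universe u v w

section conn

variable {L : Type u} {V : Type v} [Field L] [AddCommGroup V] [Module L V]
  {q : V →ₗ[L] V →ₗ[L] L}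

/-- the connection induced on the subquotient -/
theorem exists_conn_sq (hq : IsForm q) {S : Submodule L V} (n : Conn q)
    (hn : ∀ v ∈ S, n.δ v ∈ S) :
    ∃ n' : Conn (qSQ S hq), n'.d = n.d ∧ ∀ u : ↥(perp q S), ∃ h : n.δ u ∈ perp q S,
      n'.δ (SQmk S u) = SQmk S ⟨n.δ u, h⟩ := by
  obtain ⟨σ, hσ⟩ := LinearMap.exists_rightInverse_of_surjective (SQmk (q := q) S)
    (LinearMap.range_eq_top.mpr (SQmk_surjective S))
  have hσ' : ∀ x, SQmk S (σ x) = x := fun x => LinearMap.congr_fun hσ x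
  have hp : ∀ v ∈ perp q S, n.δ v ∈ perp q S := by
    intro v hv w hw
    have h1 := n.metric v w
    rw [hv w hw, map_zero, hv _ (hn w hw), add_zero] at h1
    exact h1.symm
  let D : ↥(perp q S) →+ ↥(perp q S) :=
    { toFun := fun u => ⟨n.δ u, hp u u.2⟩
      map_zero' := Subtype.ext (map_zero n.δ)
      map_add' := fun u v => Subtype.ext (map_add n.δ (u : V) v) }
  have hDs : ∀ (a : L) (u : ↥(perp q S)), D (a • u) = n.d a • u + a • D u :=
    fun a u => Subtype.ext (n.smul a u)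
  have hD : ∀ u, SQmk S (D (σ (SQmk S u))) = SQmk S (D u) := by
    intro u
    rw [← sub_eq_zero, ← map_sub, ← map_sub, SQmk_eq_zero]
    have h1 : SQmk S (σ (SQmk S u) - u) = 0 := by rw [map_sub, hσ', sub_self]
    exact hn _ ((SQmk_eq_zero S).mp h1)
  refine ⟨{ d := n.d
            δ :=
              { toFun := fun x => SQmk S (D (σ x))
                map_zero' := by rw [map_zero, map_zero, map_zero]
                map_add' := fun x y => by rw [map_add, map_add, map_add] }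
            leib := n.leib
            smul := ?_
            metric := ?_ }, rfl, fun u => ⟨hp u u.2, hD u⟩⟩
  · intro a x
    show SQmk S (D (σ (a • x))) = _
    rw [map_smul, hDs, map_add, map_smul, map_smul, hσ']
    rfl
  · intro x y
    obtain ⟨u, rfl⟩ := SQmk_surjective S x
    obtain ⟨v, rfl⟩ := SQmk_surjective S y
    show n.d (qSQ S hq (SQmk S u) (SQmk S v)) = qSQ S hq (SQmk S (D (σ (SQmk S u)))) (SQmk S v) +
      qSQ S hq (SQmk S u) (SQmk S (D (σ (SQmk S v))))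
    rw [hD, hD, qSQ_apply, qSQ_apply, qSQ_apply]
    exact n.metric u v

end conn

namespace Cfg

variable {L : Type u} {V : Type v} {J : Type w} [Field L] [AddCommGroup V] [Module L V]
  [FiniteDimensional L V] {𝒟 : Cfg L V J} {S : Submodule L V}

/-- **(P2)**: versality of the subquotient -/
theorem Rigid.versal_sq (hr : 𝒟.Rigid S) (g : 𝒟.Good) (hS : 𝒟.Iso S) (h2 : (2 : L) ≠ 0)
    (hV : 𝒟.Versal) : (sq 𝒟 g S).Versal := by
  intro Y hY η hη
  choose Z hZ hZS hZm using fun s => exists_skew S g.form hS h2 0 (Y s) (hY s)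
  obtain ⟨n, hn, hnΩ⟩ := hV Z hZ η hη
  have hst := hr.stable n hZ (fun s v hv => by rw [hZS s ⟨v, hv⟩]; exact S.zero_mem) hn
  obtain ⟨n', hd, hn'⟩ := exists_conn_sq g.form n hst
  refine ⟨n', ?_, fun l k => by rw [hd]; exact hnΩ l k⟩
  rintro s i x hx
  obtain ⟨w, hw, rfl⟩ := (mem_SQim S).mp hx
  obtain ⟨h1, h3⟩ := hn' w
  obtain ⟨h4, h5⟩ := hZm s w
  rw [h3, ← h5, ← map_sub]
  exact SQmk_mem_SQim S (hn s i w hw)

/-- **(P3)**: richness of the subquotient -/
theorem Rigid.rich_sq (hr : 𝒟.Rigid S) (g : 𝒟.Good) (hR : 𝒟.Rich) : (sq 𝒟 g S).Rich := by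
  intro m
  obtain ⟨n, τ, h1, h2, h3⟩ := hR m
  have hst : ∀ a, ∀ v ∈ S, (n a).δ v ∈ S := by
    intro a
    refine hr.stable (n a) (Y := fun _ => 0) (fun s u v => by simp) (fun s v _ => S.zero_mem) ?_
    intro s i v hv
    rw [LinearMap.zero_apply, sub_zero]
    exact h1 a s i v hv
  choose n' hd hn' using fun a => exists_conn_sq g.form (n a) (hst a)
  refine ⟨n', τ, ?_, fun a l k => by rw [hd]; exact h2 a l k, fun a b => by rw [hd]; exact h3 a b⟩
  rintro a s i x hx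
  obtain ⟨w, hw, rfl⟩ := (mem_SQim S).mp hx
  obtain ⟨h4, h5⟩ := hn' a w
  rw [h5]
  exact SQmk_mem_SQim S (h1 a s i w hw)

/-- **(P1)** -/
theorem Rigid.glVersal (hr : 𝒟.Rigid S) (g : 𝒟.Good) (hS : 𝒟.Iso S) (h2 : (2 : L) ≠ 0)
    (hV : 𝒟.Versal) : GLVersal 𝒟.Ω 𝒟.arm (objA 𝒟 S) (objB 𝒟 S) :=
  hr.glVersal' hV fun r => by
    obtain ⟨Y, h1, h3, _⟩ := exists_skew S g.form hS h2 r 0 (fun u v => by simp)
    exact ⟨Y, h1, h3⟩

variable [Fintype J] [DecidableEq J]

/-- **Reduction to smaller dimension**: a rigid isotropic subspace maximal for `theta` among its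
subspaces proves `T`. -/
theorem Rigid.T_of_IH (hr : 𝒟.Rigid S) (g : 𝒟.Good) (hS : 𝒟.Iso S) (h0 : S ≠ ⊥)
    (h2 : (2 : L) ≠ 0) (hV : 𝒟.Versal) (hR : 𝒟.Rich) (hP : 𝒟.Paired)
    (hN : H887.N1sq 𝒟.arm (fun l k => 𝒟.c l ≤ 𝒟.c k) 𝒟.Ω)
    (hI : IH.{u, v, w} L J (finrank L V)) (hmax : ∀ T ≤ S, 𝒟.theta T ≤ 𝒟.theta S) : 𝒟.T := by
  have hC : ∀ l k, 𝒟.arm l = 𝒟.arm k → 𝒟.c l ≤ 𝒟.c k → 𝒟.C l ≤ 𝒟.C k := by
    intro l k h h'
    rw [C, C, h]
    exact g.mono _ h'
  have hE := H887.mtJ (S := S) g.skew hN (A := objA 𝒟 S) (B := objB 𝒟 S) ?_ ?_ ?_ ?_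
    (hr.glVersal g hS h2 hV) ?_
  · refine T_of_sq g hS ((H887.homD_eq _ _ _).symm.trans hE.1) ?_
    exact hI _ _ (finrank_SQ_lt S g.form hS h0) (good_sq g hS) (hr.versal_sq g hS h2 hV)
      (hr.rich_sq g hR) (paired_sq g hS hP)
  · intro l k h
    rcases le_total (𝒟.c l) (𝒟.c k) with h' | h'
    · exact Or.inl (Submodule.comap_mono (hC l k h h'))
    · exact Or.inr (Submodule.comap_mono (hC k l h.symm h'))
  · intro l k h
    rcases le_total (𝒟.c l) (𝒟.c k) with h' | h'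
    · exact Or.inr (Submodule.comap_mono (perp_anti (hC l k h h')))
    · exact Or.inl (Submodule.comap_mono (perp_anti (hC k l h.symm h')))
  · intro l k h
    refine Submodule.comap_mono ?_
    rcases le_total (𝒟.c l) (𝒟.c k) with h' | h'
    · exact (g.iso (𝒟.arm k) (𝒟.c k)).trans (perp_anti (hC l k h h'))
    · exact (hC k l h.symm h').trans (g.iso (𝒟.arm l) (𝒟.c l))
  · intro l k h h'
    exact Submodule.comap_mono (perp_anti (hC l k h h'))
  · intro T
    rw [H887.chiJ_eq, H887.chiJ_eq, theta_obj, theta_obj_top]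
    refine hmax _ ?_
    rintro _ ⟨x, _, rfl⟩
    exact x.2

end Cfg

end Vale.Agent.P182.B1
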