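import Vale.Agent.P182.H664.Rigid2
import Mathlib.Data.ZMod.Basic

/-!
# Moving a pair of equal columns
-/

namespace Vale.Agent.P182.B1

open Module Matrix Vale.Agent.P182.H533 Vale.Agent.P182.H62

universe u v w

namespace Cfg

section setc

variable {L : Type u} {V : Type v} {J : Type w} [Field L] [AddCommGroup V] [Module L V]
  {𝒟 : Cfg L V J} {c : J → ℕ}

theorem Good.setc (g : 𝒟.Good) (c : J → ℕ) : (𝒟.setc c).Good :=
  ⟨g.form, g.zero, g.mono, g.iso, g.step, g.skew⟩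

theorem Versal.setc (h : 𝒟.Versal) (c : J → ℕ) : (𝒟.setc c).Versal := h

theorem Rich.setc (h : 𝒟.Rich) (c : J → ℕ) : (𝒟.setc c).Rich := h

theorem setc_c (c : J → ℕ) : (𝒟.setc c).c = c := rfl
theorem setc_arm (c : J → ℕ) : (𝒟.setc c).arm = 𝒟.arm := rfl
theorem setc_q (c : J → ℕ) : (𝒟.setc c).q = 𝒟.q := rfl
theorem setc_F (c : J → ℕ) : (𝒟.setc c).F = 𝒟.F := rfl
theorem setc_Ω (c : J → ℕ) : (𝒟.setc c).Ω = 𝒟.Ω := rfl
theorem setc_th (c : J → ℕ) (s i W) : (𝒟.setc c).th s i W = 𝒟.th s i W := rfl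
theorem setc_C (c : J → ℕ) (l) : (𝒟.setc c).C l = 𝒟.F (𝒟.arm l) (c l) := rfl

variable [DecidableEq J]

/-- the heights after moving the pair `l₀, σ l₀` to height `j` -/
def mv (𝒟 : Cfg L V J) (σ : J → J) (l₀ : J) (j : ℕ) : J → ℕ :=
  fun l => if l = l₀ ∨ l = σ l₀ then j else 𝒟.c l

theorem mv_self (σ : J → J) (l₀ : J) (j : ℕ) : 𝒟.mv σ l₀ j l₀ = j := by simp [mv]

theorem mv_self' (σ : J → J) (l₀ : J) (j : ℕ) : 𝒟.mv σ l₀ j (σ l₀) = j := by simp [mv]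

theorem mv_of_ne (σ : J → J) (l₀ : J) (j : ℕ) {l : J} (h : l ≠ l₀) (h' : l ≠ σ l₀) :
    𝒟.mv σ l₀ j l = 𝒟.c l := by simp [mv, h, h']

theorem Pairing.mv {σ : J → J} (h : 𝒟.Pairing σ) {l₀ : J} (h0 : 𝒟.arm (σ l₀) = 𝒟.arm l₀) (j : ℕ) :
    (𝒟.setc (𝒟.mv σ l₀ j)).Pairing σ := by
  refine ⟨h.invol, h.ne, ?_, ?_, h.one⟩
  · intro l hl
    rw [setc_c]
    by_cases h1 : l = l₀
    · rw [h1, mv_self, mv_self']
    · by_cases h2 : l = σ l₀
      · rw [h2, h.invol, mv_self, mv_self']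
      · rw [mv_of_ne _ _ _ h1 h2, mv_of_ne]
        · exact h.same l hl
        · intro h3; exact h2 (by rw [← h3, h.invol])
        · intro h3; exact h1 (by rw [← h.invol l, h3, h.invol])
  · intro l hl
    have h1 : l ≠ l₀ := by rintro rfl; exact hl h0
    have h2 : l ≠ σ l₀ := by
      rintro rfl
      refine hl ?_
      rw [setc_arm, h.invol, h0]
    rw [setc_C, mv_of_ne _ _ _ h1 h2]
    exact h.cross l hl

end setc

section parity

variable {L : Type u} {V : Type v} {J : Type w} [Field L] [AddCommGroup V] [Module L V]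
  {𝒟 : Cfg L V J}

/-- a column of dimension `⌊dim V / 2⌋` contains all the isotropic vectors orthogonal to it -/
theorem mem_C_of_null [FiniteDimensional L V] (g : 𝒟.Good) {l : J}
    (hl : finrank L V ≤ 2 * finrank L (𝒟.C l) + 1) {v : V} (h1 : v ∈ perp 𝒟.q (𝒟.C l))
    (h2 : 𝒟.q v v = 0) : v ∈ 𝒟.C l := by
  by_contra hv
  have h3 : 𝒟.C l < 𝒟.C l ⊔ Submodule.span L {v} := by
    refine lt_of_le_of_ne le_sup_left fun h => hv ?_
    rw [h]
    exact (le_sup_right : Submodule.span L {v} ≤ _) (Submodule.mem_span_singleton_self v)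
  have h4 : 𝒟.C l ⊔ Submodule.span L {v} ≤ perp 𝒟.q (𝒟.C l ⊔ Submodule.span L {v}) := by
    rw [perp_sup]
    refine sup_le (le_inf (g.iso _ _) ?_) (le_inf ?_ ?_)
    · intro w hw u hu
      obtain ⟨a, rfl⟩ := Submodule.mem_span_singleton.mp hu
      rw [map_smul, g.form.symm, h1 w hw, smul_zero]
    · rw [Submodule.span_le, Set.singleton_subset_iff]
      exact h1
    · rw [Submodule.span_le, Set.singleton_subset_iff]
      intro u hu
      obtain ⟨a, rfl⟩ := Submodule.mem_span_singleton.mp hu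
      rw [map_smul, h2, smul_zero]
  have h5 := Submodule.finrank_lt_finrank_of_lt h3
  have h6 := Submodule.finrank_mono h4
  have h7 := finrank_perp g.form (𝒟.C l ⊔ Submodule.span L {v})
  omega

/-- the two terms of `th` agree on isotropic subspaces at a maximal isotropic column -/
theorem inf_perp_C [FiniteDimensional L V] (g : 𝒟.Good) {l : J}
    (hl : finrank L V ≤ 2 * finrank L (𝒟.C l) + 1) {W : Submodule L V} (hW : 𝒟.Iso W) :
    W ⊓ perp 𝒟.q (𝒟.C l) = W ⊓ 𝒟.C l := by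
  refine le_antisymm (fun v hv => ⟨hv.1, mem_C_of_null g hl hv.2 (hW hv.1 v hv.1)⟩) ?_
  exact inf_le_inf_left _ (g.iso _ _)

/-- the value of `th` at a maximal isotropic column -/
theorem th_C_cross [FiniteDimensional L V] (g : 𝒟.Good) {l : J}
    (hl : finrank L V ≤ 2 * finrank L (𝒟.C l) + 1) {W : Submodule L V} (hW : 𝒟.Iso W) :
    𝒟.th (𝒟.arm l) (𝒟.c l) W = 2 * (finrank L (W ⊓ 𝒟.C l : Submodule L V) : ℤ) - finrank L W := by
  rw [th]
  change (finrank L (W ⊓ 𝒟.C l : Submodule L V) : ℤ) +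
    finrank L (W ⊓ perp 𝒟.q (𝒟.C l) : Submodule L V) - finrank L W = _
  rw [inf_perp_C g hl hW]
  ring

/-- the dimension of a maximal isotropic column -/
theorem finrank_C_cross [FiniteDimensional L V] (g : 𝒟.Good) {l : J}
    (hl : finrank L V ≤ 2 * finrank L (𝒟.C l) + 1) :
    finrank L (𝒟.C l) = finrank L V / 2 := by
  have h6 := Submodule.finrank_mono (g.iso (𝒟.arm l) (𝒟.c l))
  have h7 := finrank_perp g.form (𝒟.C l)
  change finrank L (𝒟.C l) ≤ finrank L (perp 𝒟.q (𝒟.C l)) at h6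
  omega

/-- a sum over the columns is even if it is even on the pairs -/
theorem even_sum [Fintype J] {σ : J → J} (h1 : ∀ l, σ (σ l) = l) (h2 : ∀ l, σ l ≠ l) (f : J → ℤ)
    (h : ∀ l, Even (f l + f (σ l))) : Even (∑ l, f l) := by
  have h3 : ((∑ l, f l : ℤ) : ZMod 2) = 0 := by
    rw [Int.cast_sum]
    refine Finset.sum_involution (fun l _ => σ l) ?_ ?_ (fun _ _ => Finset.mem_univ _)
      (fun l _ => h1 l)
    · intro l _
      rw [← Int.cast_add]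
      exact (ZMod.intCast_zmod_eq_zero_iff_dvd _ 2).mpr (even_iff_two_dvd.mp (h l))
    · intro l _ _
      exact h2 l
  exact even_iff_two_dvd.mpr ((ZMod.intCast_zmod_eq_zero_iff_dvd _ 2).mp h3)

theorem even_theta [FiniteDimensional L V] [Fintype J] (g : 𝒟.Good) {σ : J → J}
    (h : 𝒟.Pairing σ) {W : Submodule L V} (hW : 𝒟.Iso W) : Even (𝒟.theta W) := by
  refine even_sum h.invol h.ne _ fun l => ?_
  by_cases hl : 𝒟.arm (σ l) = 𝒟.arm l
  · rw [h.same l hl, hl]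
    exact ⟨_, rfl⟩
  · rw [th_C_cross g (h.cross l hl) hW,
      th_C_cross g (h.cross (σ l) (by rw [h.invol]; exact Ne.symm hl)) hW]
    refine ⟨finrank L (W ⊓ 𝒟.C l : Submodule L V) + finrank L (W ⊓ 𝒟.C (σ l) : Submodule L V) -
      finrank L W, ?_⟩
    ring

end parity

section move

variable {L : Type u} {V : Type v} {J : Type w} [Field L] [AddCommGroup V] [Module L V]
  [FiniteDimensional L V] {𝒟 : Cfg L V J}

theorem finrank_inf_le {A B : Submodule L V} (hAB : A ≤ B) {k : ℕ}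
    (h : finrank L B ≤ finrank L A + k) (W : Submodule L V) :
    finrank L (W ⊓ B : Submodule L V) ≤ finrank L (W ⊓ A : Submodule L V) + k := by
  have h1 := Submodule.finrank_sup_add_finrank_inf_eq A (W ⊓ B)
  have h2 : A ⊓ (W ⊓ B) = W ⊓ A := by
    rw [inf_left_comm, inf_eq_left.mpr hAB]
  have h3 : finrank L ↥(A ⊔ W ⊓ B) ≤ finrank L B := Submodule.finrank_mono (sup_le hAB inf_le_right)
  rw [h2] at h1
  omega

/-- the local function changes by at most one -/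
theorem th_step (g : 𝒟.Good) (s : Fin 3) (i : ℕ) (W : Submodule L V) :
    𝒟.th s (i + 1) W ≤ 𝒟.th s i W + 1 ∧ 𝒟.th s i W ≤ 𝒟.th s (i + 1) W + 1 := by
  have h1 : 𝒟.F s i ≤ 𝒟.F s (i + 1) := g.mono s (Nat.le_succ i)
  have h2 := g.step s i
  have h3 := finrank_inf_le h1 h2 W
  have h4 : finrank L (W ⊓ 𝒟.F s i : Submodule L V) ≤
      finrank L (W ⊓ 𝒟.F s (i + 1) : Submodule L V) := Submodule.finrank_mono (inf_le_inf_left _ h1)
  have h5 := finrank_perp g.form (𝒟.F s i)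
  have h6 := finrank_perp g.form (𝒟.F s (i + 1))
  have h7 : finrank L (perp 𝒟.q (𝒟.F s i)) ≤ finrank L (perp 𝒟.q (𝒟.F s (i + 1))) + 1 := by omega
  have h8 := finrank_inf_le (perp_anti (q := 𝒟.q) h1) h7 W
  have h9 : finrank L (W ⊓ perp 𝒟.q (𝒟.F s (i + 1)) : Submodule L V) ≤
      finrank L (W ⊓ perp 𝒟.q (𝒟.F s i) : Submodule L V) :=
    Submodule.finrank_mono (inf_le_inf_left _ (perp_anti h1))
  simp only [th]
  omega

variable [Fintype J] [DecidableEq J]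

omit [FiniteDimensional L V] in
theorem theta_mv {σ : J → J} (h : 𝒟.Pairing σ) {l₀ : J} (h0 : 𝒟.arm (σ l₀) = 𝒟.arm l₀) (j : ℕ)
    (W : Submodule L V) : (𝒟.setc (𝒟.mv σ l₀ j)).theta W =
      𝒟.theta W + 2 * (𝒟.th (𝒟.arm l₀) j W - 𝒟.th (𝒟.arm l₀) (𝒟.c l₀) W) := by
  have h1 : (𝒟.setc (𝒟.mv σ l₀ j)).theta W - 𝒟.theta W =
      2 * (𝒟.th (𝒟.arm l₀) j W - 𝒟.th (𝒟.arm l₀) (𝒟.c l₀) W) := by
    rw [theta, theta, ← Finset.sum_sub_distrib]
    rw [Finset.sum_eq_add l₀ (σ l₀) (Ne.symm (h.ne l₀))]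
    · rw [setc_c, setc_arm, mv_self, mv_self', setc_th, setc_th, h0, h.same l₀ h0]
      ring
    · rintro l _ ⟨h2, h3⟩
      rw [setc_c, setc_arm, mv_of_ne _ _ _ h2 h3, setc_th, sub_self]
    · intro h; exact absurd (Finset.mem_univ _) h
    · intro h; exact absurd (Finset.mem_univ _) h
  linarith

/-- the numerical condition on the null subspaces -/
def Null (𝒟 : Cfg L V J) : Prop := ∀ S, 𝒟.Iso S → 𝒟.theta S = 0 →
  (∀ s i, 𝒟.th s i S ≤ 0) ∧ ∀ l, 𝒟.th (𝒟.arm l) (𝒟.c l) S = 0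

omit [FiniteDimensional L V] [DecidableEq J] in
theorem null_of (h : ∀ S, 𝒟.Iso S → 𝒟.theta S = 0 →
    ¬ ((∃ s i, 0 < 𝒟.th s i S) ∨ ∃ l, 𝒟.th (𝒟.arm l) (𝒟.c l) S < 0)) : 𝒟.Null := by
  intro S hS h0
  have h1 := h S hS h0
  push Not at h1
  refine ⟨h1.1, fun l => le_antisymm (h1.1 _ _) (h1.2 l)⟩

/-- **The double moves preserve semistability.** -/
theorem semistable_mv (g : 𝒟.Good) (hs : 𝒟.Semistable) (hn : 𝒟.Null) {σ : J → J}
    (h : 𝒟.Pairing σ) {l₀ : J}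
    (h0 : 𝒟.arm (σ l₀) = 𝒟.arm l₀) (j : ℕ)
    (hj : ∀ W, 𝒟.th (𝒟.arm l₀) j W ≤ 𝒟.th (𝒟.arm l₀) (𝒟.c l₀) W + 1) :
    (𝒟.setc (𝒟.mv σ l₀ j)).Semistable := by
  intro S hS
  have hS' : 𝒟.Iso S := hS
  rw [theta_mv h h0]
  rcases (hs S hS').lt_or_eq with h1 | h1
  · obtain ⟨a, ha⟩ := even_theta g h hS'
    have := hj S
    omega
  · obtain ⟨h2, h3⟩ := hn S hS' h1
    rw [h1, h3 l₀]
    have := h2 (𝒟.arm l₀) j
    omega

omit [FiniteDimensional L V] in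
/-- an element of the kernel in the shortened columns is in the kernel of the shortened
configuration -/
theorem mem_K_mv (g : 𝒟.Good) {σ : J → J} (h : 𝒟.Pairing σ) {l₀ : J}
    (h0 : 𝒟.arm (σ l₀) = 𝒟.arm l₀) {j : ℕ} (hj : j ≤ 𝒟.c l₀) {t : J → V} (ht : t ∈ 𝒟.K)
    (h1 : t l₀ ∈ 𝒟.F (𝒟.arm l₀) j) (h2 : t (σ l₀) ∈ 𝒟.F (𝒟.arm l₀) j) :
    t ∈ (𝒟.setc (𝒟.mv σ l₀ j)).K := by
  rw [mem_K] at ht ⊢
  have hle : ∀ l, (𝒟.setc (𝒟.mv σ l₀ j)).C l ≤ 𝒟.C l := by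
    intro l
    rw [setc_C]
    refine g.mono _ ?_
    by_cases h3 : l = l₀
    · rw [h3, mv_self]; exact hj
    · by_cases h4 : l = σ l₀
      · rw [h4, mv_self', h.same l₀ h0]; exact hj
      · rw [mv_of_ne _ _ _ h3 h4]
  refine ⟨fun l => ?_, fun l => perp_anti (hle l) (ht.2 l)⟩
  rw [setc_C]
  by_cases h3 : l = l₀
  · rw [h3, mv_self]; exact h1
  · by_cases h4 : l = σ l₀
    · rw [h4, mv_self', h0]; exact h2
    · rw [mv_of_ne _ _ _ h3 h4]
      exact ht.1 l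

omit [FiniteDimensional L V] in
theorem sum_mv_lt {σ : J → J} (h : 𝒟.Pairing σ) {l₀ : J} (h0 : 𝒟.arm (σ l₀) = 𝒟.arm l₀) {j : ℕ}
    (hj : j < 𝒟.c l₀) : ∑ l, 𝒟.mv σ l₀ j l < ∑ l, 𝒟.c l := by
  refine Finset.sum_lt_sum (fun l _ => ?_) ⟨l₀, Finset.mem_univ _, by rw [mv_self]; exact hj⟩
  by_cases h3 : l = l₀
  · rw [h3, mv_self]; exact hj.le
  · by_cases h4 : l = σ l₀
    · rw [h4, mv_self', h.same l₀ h0]; exact hj.le
    · rw [mv_of_ne _ _ _ h3 h4]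

/-- if the kernel is detected by the corners at `l₀, σ l₀`, its dimension is at most two -/
theorem finrank_K_le_two (g : 𝒟.Good) {σ : J → J} (h : 𝒟.Pairing σ) {l₀ : J}
    (h0 : 𝒟.arm (σ l₀) = 𝒟.arm l₀) (hc : 1 ≤ 𝒟.c l₀)
    (hK : ∀ t ∈ 𝒟.K, t l₀ ∈ 𝒟.F (𝒟.arm l₀) (𝒟.c l₀ - 1) →
      t (σ l₀) ∈ 𝒟.F (𝒟.arm l₀) (𝒟.c l₀ - 1) → t = 0) : finrank L 𝒟.K ≤ 2 := by
  set A := 𝒟.F (𝒟.arm l₀) (𝒟.c l₀ - 1) with hA
  set B := 𝒟.F (𝒟.arm l₀) (𝒟.c l₀) with hB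
  have hAB : A ≤ B := g.mono _ (Nat.sub_le _ _)
  have h1 : finrank L B ≤ finrank L A + 1 := by
    have := g.step (𝒟.arm l₀) (𝒟.c l₀ - 1)
    rwa [Nat.sub_add_cancel hc] at this
  have h2 : finrank L (B.map A.mkQ) ≤ 1 := by
    have h3 := H887.finrank_map_add A.mkQ B
    rw [Submodule.ker_mkQ, inf_eq_right.mpr hAB] at h3
    omega
  let f : 𝒟.K →ₗ[L] (B.map A.mkQ) × (B.map A.mkQ) :=
    { toFun := fun t => (⟨A.mkQ (t.1 l₀), Submodule.mem_map_of_mem (t.2.1 l₀)⟩,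
        ⟨A.mkQ (t.1 (σ l₀)), Submodule.mem_map_of_mem (by
          have := t.2.1 (σ l₀)
          rwa [C, h0, h.same l₀ h0] at this)⟩)
      map_add' := fun a b => rfl
      map_smul' := fun x a => rfl }
  have hf : Function.Injective f := by
    rw [← LinearMap.ker_eq_bot, LinearMap.ker_eq_bot']
    intro t ht
    have h3 : A.mkQ (t.1 l₀) = 0 := congrArg (fun z => (z.1 : V ⧸ A)) ht
    have h4 : A.mkQ (t.1 (σ l₀)) = 0 := congrArg (fun z => (z.2 : V ⧸ A)) ht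
    exact Subtype.ext (hK t.1 t.2 ((Submodule.Quotient.mk_eq_zero A).mp h3)
      ((Submodule.Quotient.mk_eq_zero A).mp h4))
  have h3 := LinearMap.finrank_le_finrank_of_injective hf
  rw [Module.finrank_prod] at h3
  omega

end move

end Cfg

end Vale.Agent.P182.B1
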